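import Vale.Agent.P040.Page.Cross
import Vale.Agent.P040.DrawingLemmas

/-!
# Arc calculus in the plane: sub-arcs, concatenation, germs, crossings and germs
-/

namespace Vale.Agent.P040

open Set Filter Topology

theorem IsArc.isCompact {S : Set Plane} {p q : Plane} (h : IsArc S p q) : IsCompact S := by
  obtain ⟨γ, h1, -, -, -, h5⟩ := h
  rw [← h5]
  exact isCompact_Icc.image_of_continuousOn h1

theorem IsArc.isClosed {S : Set Plane} {p q : Plane} (h : IsArc S p q) : IsClosed S :=
  h.isCompact.isClosed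

namespace Unc

/-- A continuous injective image of a compact interval is an arc. -/
theorem isArc_image {γ : ℝ → Plane} {s t : ℝ} (hst : s < t) (hc : ContinuousOn γ (Icc s t))
    (hi : InjOn γ (Icc s t)) : IsArc (γ '' Icc s t) (γ s) (γ t) := by
  have hm : MapsTo (fun u : ℝ => s + u * (t - s)) (Icc 0 1) (Icc s t) := by
    intro u hu
    constructor
    · nlinarith [hu.1, hu.2]
    · nlinarith [hu.1, hu.2]
  refine ⟨fun u => γ (s + u * (t - s)), hc.comp (by fun_prop) hm, ?_, by simp, by simp, ?_⟩
  · intro u hu v hv huv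
    have h := hi (hm hu) (hm hv) huv
    simp only at h
    have h2 : (u - v) * (t - s) = 0 := by linarith
    rcases mul_eq_zero.1 h2 with h3 | h3
    · linarith
    · linarith
  · ext y
    constructor
    · rintro ⟨u, hu, rfl⟩
      exact ⟨_, hm hu, rfl⟩
    · rintro ⟨w, hw, rfl⟩
      refine ⟨(w - s) / (t - s), ⟨div_nonneg (by linarith [hw.1]) (by linarith), ?_⟩, ?_⟩
      · rw [div_le_one (by linarith)]; linarith [hw.2]
      · have : t - s ≠ 0 := by linarith
        simp only
        congr 1
        field_simp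
        ring

theorem isClosed_image {γ : ℝ → Plane} {s t : ℝ} (hc : ContinuousOn γ (Icc s t)) :
    IsClosed (γ '' Icc s t) :=
  (isCompact_Icc.image_of_continuousOn hc).isClosed

/-- Concatenation of arcs which meet only in the common end. -/
theorem _root_.Vale.Agent.P040.IsArc.concat {A B : Set Plane} {p q r : Plane} (hA : IsArc A p q)
    (hB : IsArc B q r) (hAB : ∀ y ∈ A, y ∈ B → y = q) : IsArc (A ∪ B) p r := by
  obtain ⟨γ, h1, h2, h3, h4, h5⟩ := hA
  obtain ⟨δ, k1, k2, k3, k4, k5⟩ := hB
  set η : ℝ → Plane := fun t => if t ≤ 1 then γ t else δ (t - 1) with hη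
  have e1 : EqOn η γ (Icc 0 1) := by
    intro t ht
    simp only [hη, if_pos ht.2]
  have e2 : EqOn η (fun t => δ (t - 1)) (Icc 1 2) := by
    intro t ht
    rcases ht.1.eq_or_lt with h | h
    · subst h
      simp only [hη, le_refl, if_true, sub_self]
      rw [h4, k3]
    · simp only [hη, if_neg (not_le.2 h)]
  have hm : MapsTo (fun t : ℝ => t - 1) (Icc 1 2) (Icc 0 1) := by
    intro t ht
    exact ⟨by linarith [ht.1], by linarith [ht.2]⟩
  have c1 : ContinuousOn η (Icc 0 1) := h1.congr e1
  have c2 : ContinuousOn η (Icc 1 2) := (k1.comp (by fun_prop) hm).congr e2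
  have hU : Icc (0 : ℝ) 1 ∪ Icc 1 2 = Icc 0 2 := Icc_union_Icc_eq_Icc (by norm_num) (by norm_num)
  have c3 : ContinuousOn η (Icc 0 2) := by
    rw [← hU]
    exact c1.union_of_isClosed c2 isClosed_Icc isClosed_Icc
  have i1 : InjOn η (Icc 0 2) := by
    have key : ∀ s ∈ Icc (0 : ℝ) 1, ∀ t ∈ Icc (1 : ℝ) 2, η s = η t → s = t := by
      intro s hs t ht hst
      have ha : η s ∈ A := by rw [e1 hs, ← h5]; exact ⟨s, hs, rfl⟩
      have hb : η s ∈ B := by rw [hst, e2 ht, ← k5]; exact ⟨t - 1, hm ht, rfl⟩
      have hq := hAB _ ha hb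
      have hs1 : s = 1 := by
        apply h2 hs (by simp)
        rw [← e1 hs, hq, h4]
      have ht1 : t - 1 = 0 := by
        apply k2 (hm ht) (by simp)
        have := e2 ht
        simp only at this
        rw [← this, ← hst, hq, k3]
      linarith
    intro s hs t ht hst
    rw [← hU] at hs ht
    rcases hs with hs | hs <;> rcases ht with ht | ht
    · apply h2 hs ht
      rw [← e1 hs, ← e1 ht, hst]
    · exact key s hs t ht hst
    · exact (key t ht s hs hst.symm).symm
    · have := k2 (hm hs) (hm ht) (by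
        have a1 := e2 hs
        have a2 := e2 ht
        simp only at a1 a2
        simp only
        rw [← a1, ← a2, hst])
      linarith
  have h := isArc_image (by norm_num : (0 : ℝ) < 2) c3 i1
  have hp : η 0 = p := by rw [e1 (by simp), h3]
  have hr : η 2 = r := by
    rw [e2 (by constructor <;> norm_num)]
    simp only
    rw [← k4]; norm_num
  rw [hp, hr, ← hU, image_union] at h
  have hA' : η '' Icc 0 1 = A := by rw [e1.image_eq, h5]
  have hB' : η '' Icc 1 2 = B := by
    rw [e2.image_eq, ← k5]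
    ext y
    constructor
    · rintro ⟨t, ht, rfl⟩; exact ⟨t - 1, hm ht, rfl⟩
    · rintro ⟨t, ht, rfl⟩
      exact ⟨t + 1, ⟨by linarith [ht.1], by linarith [ht.2]⟩, by simp⟩
  rwa [hA', hB'] at h

/-- Two sets coincide near a point. -/
def Germ (S T : Set Plane) (x : Plane) : Prop := ∀ᶠ y in 𝓝 x, (y ∈ S ↔ y ∈ T)

theorem Germ.refl (S : Set Plane) (x : Plane) : Germ S S x := Eventually.of_forall fun _ => Iff.rfl

theorem Germ.symm {S T : Set Plane} {x : Plane} (h : Germ S T x) : Germ T S x :=
  h.mono fun _ hy => hy.symm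

theorem Germ.trans {S T U : Set Plane} {x : Plane} (h : Germ S T x) (h' : Germ T U x) :
    Germ S U x := by
  filter_upwards [h, h'] with y h1 h2
  exact h1.trans h2

theorem Germ.mem {S T : Set Plane} {x : Plane} (h : Germ S T x) : x ∈ S ↔ x ∈ T :=
  Eventually.self_of_nhds (p := fun y => (y ∈ S ↔ y ∈ T)) h

theorem germ_union_left {A B : Set Plane} {x : Plane} (hB : IsClosed B) (hx : x ∉ B) :
    Germ (A ∪ B) A x := by
  filter_upwards [hB.isOpen_compl.mem_nhds hx] with y hy
  simp only [mem_union]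
  exact ⟨fun h => h.resolve_right hy, Or.inl⟩

theorem germ_union_right {A B : Set Plane} {x : Plane} (hA : IsClosed A) (hx : x ∉ A) :
    Germ (A ∪ B) B x := by
  rw [union_comm]; exact germ_union_left hA hx

theorem _root_.Vale.Agent.P040.CrossAt.germ {S T S' T' : Set Plane} {x : Plane}
    (h : CrossAt S T x) (hS : Germ S' S x) (hT : Germ T' T x) : CrossAt S' T' x := by
  obtain ⟨φ, h1, h2, h3, h4⟩ := h
  obtain ⟨U, hU, hUo, hxU⟩ := eventually_nhds_iff.1 (hS.and hT)
  refine ⟨φ.restrOpen U hUo, ?_, ?_, ?_, ?_⟩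
  · simp [h1, hxU]
  · simpa using h2
  · intro y hy
    rw [OpenPartialHomeomorph.restrOpen_source] at hy
    rw [(hU y hy.2).1]
    simpa using h3 y hy.1
  · intro y hy
    rw [OpenPartialHomeomorph.restrOpen_source] at hy
    rw [(hU y hy.2).2]
    simpa using h4 y hy.1

end Unc

end Vale.Agent.P040
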