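import Mathlib

/-!
# Cyclic orders, circulations and the duality
-/

namespace Vale.Agent.P040.Gen

open Finset

/-- Half the sign of `ρ k - ρ b`. -/
noncomputable def sg {n : ℕ} (ρ : Equiv.Perm (Fin n)) (b k : Fin n) : ℝ :=
  if ρ b < ρ k then 1 / 2 else if ρ k < ρ b then -(1 / 2) else 0

theorem sg_anti {n : ℕ} (ρ : Equiv.Perm (Fin n)) (b k : Fin n) : sg ρ k b = - sg ρ b k := by
  unfold sg
  rcases lt_trichotomy (ρ b) (ρ k) with h | h | h
  · rw [if_neg (not_lt.2 h.le), if_pos h, if_pos h]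
  · rw [h]; simp
  · rw [if_pos h, if_neg (not_lt.2 h.le), if_pos h]; ring

/-- `1 - 2 j / n`, where `j` is the distance from `b` to `k` in the cyclic order. -/
noncomputable def av {n : ℕ} (ρ : Equiv.Perm (Fin n)) (b k : Fin n) : ℝ :=
  2 * sg ρ b k - 2 / n * ((ρ k : ℝ) - (ρ b : ℝ))

theorem av_anti {n : ℕ} (ρ : Equiv.Perm (Fin n)) (b k : Fin n) : av ρ k b = - av ρ b k := by
  unfold av
  rw [sg_anti ρ b k]
  ring

theorem exists_rank {n : ℕ} {β : Fin n → ℝ} (hβ : Function.Injective β) :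
    ∃ ρ : Equiv.Perm (Fin n), ∀ b k, ρ b < ρ k ↔ β b < β k := by
  refine ⟨(Tuple.sort β)⁻¹, ?_⟩
  have hm : StrictMono (β ∘ Tuple.sort β) :=
    (Tuple.monotone_sort β).strictMono_of_injective (hβ.comp (Tuple.sort β).injective)
  intro b k
  have := hm.lt_iff_lt (a := (Tuple.sort β)⁻¹ b) (b := (Tuple.sort β)⁻¹ k)
  simpa using this.symm

/-- Sum over a row of a function of the cyclic distance. -/
theorem row_sum {n : ℕ} (ρ : Equiv.Perm (Fin n)) (F : ℝ → ℝ) (b : Fin n) :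
    ∑ k, F (av ρ b k) = F 0 + ∑ j ∈ Finset.Ico 1 n, F (1 - 2 * j / n) := by
  have hn : (n : ℝ) ≠ 0 := by
    have : 0 < n := lt_of_le_of_lt (Nat.zero_le _) b.2
    exact_mod_cast this.ne'
  obtain ⟨i, hi⟩ : ∃ i : ℕ, i = (ρ b : ℕ) := ⟨_, rfl⟩
  have hin : i < n := hi ▸ (ρ b).2
  have h1 : ∑ k, F (av ρ b k) = ∑ k : Fin n, F (if i < k then 1 - 2 * ((k : ℕ) - (i : ℕ) : ℝ) / n
      else if (k : ℕ) < i then -1 + 2 * ((i : ℕ) - (k : ℕ) : ℝ) / n else 0) := by
    rw [← Equiv.sum_comp ρ (fun k : Fin n => F (if i < k then 1 - 2 * ((k : ℕ) - (i : ℕ) : ℝ) / n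
      else if (k : ℕ) < i then -1 + 2 * ((i : ℕ) - (k : ℕ) : ℝ) / n else 0))]
    apply Finset.sum_congr rfl
    intro k _
    congr 1
    unfold av sg
    simp only [hi, Fin.lt_def]
    rcases lt_trichotomy (ρ b : ℕ) (ρ k : ℕ) with h | h | h
    · rw [if_pos h, if_pos h]; ring
    · rw [if_neg (by omega), if_neg (by omega), if_neg (by omega), if_neg (by omega), h]; ring
    · rw [if_neg (by omega), if_pos h, if_neg (by omega), if_pos h]; ring
  rw [h1, Fin.sum_univ_eq_sum_range (fun k => F (if i < k then 1 - 2 * ((k : ℕ) - (i : ℕ) : ℝ) / n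
      else if (k : ℕ) < i then -1 + 2 * ((i : ℕ) - (k : ℕ) : ℝ) / n else 0)) n,
    ← Finset.sum_range_add_sum_Ico _ hin.le, Finset.sum_eq_sum_Ico_succ_bot hin]
  have h2 : ∑ k ∈ Finset.range i, F (if i < k then 1 - 2 * ((k : ℕ) - (i : ℕ) : ℝ) / n
      else if (k : ℕ) < i then -1 + 2 * ((i : ℕ) - (k : ℕ) : ℝ) / n else 0) =
      ∑ j ∈ Finset.Ico (n - i) n, F (1 - 2 * j / n) := by
    rw [Finset.sum_Ico_eq_sum_range, show n - (n - i) = i by omega]
    apply Finset.sum_congr rfl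
    intro k hk
    rw [Finset.mem_range] at hk
    rw [if_neg (by omega), if_pos hk]
    congr 1
    push_cast [Nat.cast_sub hin.le]
    field_simp
    ring
  have h3 : ∑ k ∈ Finset.Ico (i + 1) n, F (if i < k then 1 - 2 * ((k : ℕ) - (i : ℕ) : ℝ) / n
      else if (k : ℕ) < i then -1 + 2 * ((i : ℕ) - (k : ℕ) : ℝ) / n else 0) =
      ∑ j ∈ Finset.Ico 1 (n - i), F (1 - 2 * j / n) := by
    have h4 := Finset.sum_Ico_add' (fun x : ℕ => F (1 - 2 * ((x : ℕ) - (i : ℕ) : ℝ) / n)) 1 (n - i) i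
    rw [show 1 + i = i + 1 by omega, show n - i + i = n by omega] at h4
    rw [show ∑ j ∈ Finset.Ico 1 (n - i), F (1 - 2 * j / n) = ∑ x ∈ Finset.Ico 1 (n - i),
      (fun x : ℕ => F (1 - 2 * ((x : ℕ) - (i : ℕ) : ℝ) / n)) (x + i) from ?_, h4]
    · apply Finset.sum_congr rfl
      intro k hk
      rw [Finset.mem_Ico] at hk
      rw [if_pos (by omega)]
    · apply Finset.sum_congr rfl
      intro k _
      simp only
      congr 1
      push_cast
      ring
  rw [h2, h3, if_neg (by omega), if_neg (by omega),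
    ← Finset.sum_Ico_consecutive (fun j : ℕ => F (1 - 2 * j / n)) (show 1 ≤ n - i by omega)
      (show n - i ≤ n by omega)]
  ring

/-- The sum of an odd function over a row vanishes. -/
theorem row_odd {n : ℕ} (ρ : Equiv.Perm (Fin n)) {F : ℝ → ℝ} (hF : ∀ u, F (-u) = - F u)
    (b : Fin n) : ∑ k, F (av ρ b k) = 0 := by
  have hn : (n : ℝ) ≠ 0 := by
    have : 0 < n := lt_of_le_of_lt (Nat.zero_le _) b.2
    exact_mod_cast this.ne'
  have hn0 : 0 < n := lt_of_le_of_lt (Nat.zero_le _) b.2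
  rw [row_sum]
  have h0 : F 0 = 0 := by
    have := hF 0
    rw [neg_zero] at this
    linarith
  have h1 := Finset.sum_Ico_reflect (fun j : ℕ => F (1 - 2 * j / n)) 1 (m := n) (n := n) (by omega)
  rw [show n + 1 - n = 1 by omega, show n + 1 - 1 = n by omega] at h1
  have h2 : ∑ j ∈ Finset.Ico 1 n, F (1 - 2 * ((n - j : ℕ) : ℝ) / n) =
      - ∑ j ∈ Finset.Ico 1 n, F (1 - 2 * j / n) := by
    rw [← Finset.sum_neg_distrib]
    apply Finset.sum_congr rfl
    intro j hj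
    rw [Finset.mem_Ico] at hj
    rw [← hF]
    congr 1
    rw [Nat.cast_sub hj.2.le]
    field_simp
    ring
  rw [h2] at h1
  linarith

section dual

variable {n : ℕ}

theorem floor_fract_sub {u v : ℝ} (h : ∀ k : ℤ, v - u ≠ k) :
    (⌊v - u⌋ : ℝ) = ⌊v⌋ - ⌊u⌋ + (if Int.fract u < Int.fract v then 0 else -1) := by
  have e : v - u = Int.fract v - Int.fract u + ((⌊v⌋ - ⌊u⌋ : ℤ) : ℝ) := by
    unfold Int.fract
    push_cast
    ring
  have hf0 := Int.fract_nonneg u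
  have hf1 := Int.fract_lt_one u
  have hg0 := Int.fract_nonneg v
  have hg1 := Int.fract_lt_one v
  have h1 : ⌊v - u⌋ = ⌊Int.fract v - Int.fract u⌋ + (⌊v⌋ - ⌊u⌋) := by
    rw [e, Int.floor_add_intCast]
  rw [h1]
  split_ifs with h2
  · have : ⌊Int.fract v - Int.fract u⌋ = 0 := by
      rw [Int.floor_eq_zero_iff]
      exact ⟨by linarith, by linarith⟩
    rw [this]; push_cast; ring
  · have h3 : Int.fract v ≠ Int.fract u := by
      intro h4
      apply h (⌊v⌋ - ⌊u⌋)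
      rw [e, h4]
      push_cast; ring
    have : ⌊Int.fract v - Int.fract u⌋ = -1 := by
      rw [Int.floor_eq_iff]
      push Not at h2
      have := lt_of_le_of_ne h2 h3
      push_cast
      exact ⟨by linarith, by linarith⟩
    rw [this]; push_cast; ring

theorem pot_sum {s : Fin n → Fin n → ℝ} (hs : ∀ b k, s k b = - s b k)
    (hrow : ∀ b, ∑ k, s b k = 0) (P : Fin n → ℝ) : ∑ b, ∑ k, (P k - P b) * s b k = 0 := by
  have h1 : ∑ b, ∑ k, P b * s b k = 0 := by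
    apply Finset.sum_eq_zero
    intro b _
    rw [← Finset.mul_sum, hrow, mul_zero]
  have h2 : ∑ b, ∑ k, P k * s b k = 0 := by
    rw [Finset.sum_comm]
    apply Finset.sum_eq_zero
    intro k _
    rw [← Finset.mul_sum]
    have : ∑ b, s b k = - ∑ b, s k b := by
      rw [← Finset.sum_neg_distrib]
      exact Finset.sum_congr rfl (fun b _ => hs k b)
    rw [this, hrow, neg_zero, mul_zero]
  have h3 : ∑ b, ∑ k, (P k - P b) * s b k = ∑ b, ∑ k, P k * s b k - ∑ b, ∑ k, P b * s b k := by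
    rw [← Finset.sum_sub_distrib]
    apply Finset.sum_congr rfl
    intro b _
    rw [← Finset.sum_sub_distrib]
    apply Finset.sum_congr rfl
    intro k _
    ring
  rw [h3, h1, h2, sub_zero]

/-- The duality for a pair of stars. -/
theorem dual {α α' X Y : Fin n → ℝ} {c c' : ℝ} (hα : ∀ b b', b ≠ b' → ∀ k : ℤ, α b' - α b ≠ k)
    (hα' : ∀ b b', b ≠ b' → ∀ k : ℤ, α' b' - α' b ≠ k) (hX : ∀ b, ∃ k : ℤ, X b = α b + c + k)
    (hY : ∀ b, ∃ k : ℤ, Y b = c' - α' b + k) {N : Fin n → Fin n → ℕ}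
    (hN : ∀ b b', b ≠ b' → |⌊X b' - X b⌋ - ⌊Y b' - Y b⌋| ≤ (N b b' : ℤ))
    {ρ ρ' : Equiv.Perm (Fin n)} (hρ : ∀ b k, ρ b < ρ k ↔ Int.fract (α b) < Int.fract (α k))
    (hρ' : ∀ b k, ρ' b < ρ' k ↔ Int.fract (α' b) < Int.fract (α' k))
    {s : Fin n → Fin n → ℝ} (hs : ∀ b k, s k b = - s b k) (hrow : ∀ b, ∑ k, s b k = 0)
    (hb : ∀ b k, |s b k| ≤ 1) :
    ∑ b, ∑ k, (av ρ b k + av ρ' b k) * s b k ≤
      2 * ∑ b, ∑ k ∈ Finset.univ.filter (fun k => b ≠ k), (N b k : ℝ) := by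
  classical
  choose p hp using hX
  choose q hq using hY
  have hss : ∀ b, s b b = 0 := fun b => by linarith [hs b b]
  -- the floors in terms of the ranks
  have e1 : ∀ b k, b ≠ k → (⌊X k - X b⌋ : ℝ) =
      (((p k : ℝ) + ⌊α k⌋) - (p b + ⌊α b⌋)) + (sg ρ b k - 1 / 2) := by
    intro b k hbk
    have h1 : X k - X b = (α k - α b) + ((p k - p b : ℤ) : ℝ) := by
      rw [hp, hp]; push_cast; ring
    rw [h1, Int.floor_add_intCast]
    push_cast
    rw [floor_fract_sub (hα b k hbk)]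
    unfold sg
    have hne : ρ b ≠ ρ k := fun h => hbk (ρ.injective h)
    by_cases h2 : ρ b < ρ k
    · rw [if_pos h2, if_pos ((hρ b k).1 h2)]; ring
    · rw [if_neg h2, if_neg (fun h => h2 ((hρ b k).2 h)),
        if_pos (lt_of_le_of_ne (not_lt.1 h2) hne.symm)]
      ring
  have e2 : ∀ b k, b ≠ k → (⌊Y k - Y b⌋ : ℝ) =
      (((q k : ℝ) - ⌊α' k⌋) - (q b - ⌊α' b⌋)) - (sg ρ' b k + 1 / 2) := by
    intro b k hbk
    have h1 : Y k - Y b = (α' b - α' k) + ((q k - q b : ℤ) : ℝ) := by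
      rw [hq, hq]; push_cast; ring
    rw [h1, Int.floor_add_intCast]
    push_cast
    rw [floor_fract_sub (hα' k b hbk.symm)]
    unfold sg
    have hne : ρ' b ≠ ρ' k := fun h => hbk (ρ'.injective h)
    by_cases h2 : ρ' b < ρ' k
    · have h3 := (hρ' b k).1 h2
      rw [if_pos h2, if_neg (not_lt.2 h3.le)]; ring
    · have h4 : ρ' k < ρ' b := lt_of_le_of_ne (not_lt.1 h2) hne.symm
      rw [if_neg h2, if_pos h4, if_pos ((hρ' k b).1 h4)]
      ring
  set P : Fin n → ℝ := fun b => ((p b : ℝ) + ⌊α b⌋) - (q b - ⌊α' b⌋) with hP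
  have key : ∀ b k, (sg ρ b k + sg ρ' b k) * s b k ≤
      (if b ≠ k then (N b k : ℝ) else 0) - (P k - P b) * s b k := by
    intro b k
    by_cases hbk : b = k
    · subst hbk
      simp [hss]
    · rw [if_pos hbk]
      have h1 : (sg ρ b k + sg ρ' b k) =
          ((⌊X k - X b⌋ : ℝ) - ⌊Y k - Y b⌋) - (P k - P b) := by
        rw [e1 b k hbk, e2 b k hbk, hP]
        ring
      have h2 : ((⌊X k - X b⌋ : ℝ) - ⌊Y k - Y b⌋) * s b k ≤ (N b k : ℝ) := by
        have h3 : |((⌊X k - X b⌋ : ℝ) - ⌊Y k - Y b⌋)| ≤ (N b k : ℝ) := by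
          exact_mod_cast hN b k hbk
        calc ((⌊X k - X b⌋ : ℝ) - ⌊Y k - Y b⌋) * s b k
            ≤ |((⌊X k - X b⌋ : ℝ) - ⌊Y k - Y b⌋) * s b k| := le_abs_self _
          _ = |((⌊X k - X b⌋ : ℝ) - ⌊Y k - Y b⌋)| * |s b k| := abs_mul _ _
          _ ≤ (N b k : ℝ) * 1 := mul_le_mul h3 (hb b k) (abs_nonneg _) (Nat.cast_nonneg _)
          _ = (N b k : ℝ) := mul_one _
      rw [h1]
      linarith
  have h1 : ∑ b, ∑ k, (sg ρ b k + sg ρ' b k) * s b k ≤
      ∑ b, ∑ k ∈ Finset.univ.filter (fun k => b ≠ k), (N b k : ℝ) := by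
    calc ∑ b, ∑ k, (sg ρ b k + sg ρ' b k) * s b k
        ≤ ∑ b, ∑ k, ((if b ≠ k then (N b k : ℝ) else 0) - (P k - P b) * s b k) :=
          Finset.sum_le_sum fun b _ => Finset.sum_le_sum fun k _ => key b k
      _ = ∑ b, ∑ k ∈ Finset.univ.filter (fun k => b ≠ k), (N b k : ℝ)
          - ∑ b, ∑ k, (P k - P b) * s b k := by
          rw [← Finset.sum_sub_distrib]
          apply Finset.sum_congr rfl
          intro b _
          rw [Finset.sum_sub_distrib, Finset.sum_filter]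
      _ = _ := by rw [pot_sum hs hrow, sub_zero]
  have h2 : ∑ b, ∑ k, (av ρ b k + av ρ' b k) * s b k =
      2 * ∑ b, ∑ k, (sg ρ b k + sg ρ' b k) * s b k := by
    have h3 := pot_sum hs hrow (fun b => 2 / n * ((ρ b : ℝ) + (ρ' b : ℝ)))
    calc ∑ b, ∑ k, (av ρ b k + av ρ' b k) * s b k
        = ∑ b, ∑ k, (2 * ((sg ρ b k + sg ρ' b k) * s b k) -
          ((2 / n * ((ρ k : ℝ) + (ρ' k : ℝ))) - (2 / n * ((ρ b : ℝ) + (ρ' b : ℝ)))) * s b k) := by
          apply Finset.sum_congr rfl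
          intro b _
          apply Finset.sum_congr rfl
          intro k _
          unfold av
          ring
      _ = 2 * ∑ b, ∑ k, (sg ρ b k + sg ρ' b k) * s b k - ∑ b, ∑ k,
          ((2 / n * ((ρ k : ℝ) + (ρ' k : ℝ))) - (2 / n * ((ρ b : ℝ) + (ρ' b : ℝ)))) * s b k := by
          rw [Finset.mul_sum, ← Finset.sum_sub_distrib]
          apply Finset.sum_congr rfl
          intro b _
          rw [Finset.mul_sum, ← Finset.sum_sub_distrib]
      _ = _ := by rw [h3, sub_zero]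
  rw [h2]
  linarith

end dual

end Vale.Agent.P040.Gen
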