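import Vale.Agent.P040.Gen.Core

/-!
# The kernel and its sums
-/

namespace Vale.Agent.P040.Gen

open Finset

/-- The clipped linear function. -/
noncomputable def gcl (u : ℝ) : ℝ := max (-(1 / 2)) (min (1 / 2) (12 / 5 * u))

theorem gcl_neg (u : ℝ) : gcl (-u) = - gcl u := by
  unfold gcl
  rcases le_total (12 / 5 * u) (-(1 / 2)) with h | h
  · rw [min_eq_right (by linarith : 12 / 5 * u ≤ 1 / 2), max_eq_left h,
      min_eq_left (by linarith : 1 / 2 ≤ 12 / 5 * -u), max_eq_right (by norm_num)]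
    ring
  · rcases le_total (12 / 5 * u) (1 / 2) with h2 | h2
    · rw [min_eq_right h2, max_eq_right h, min_eq_right (by linarith : 12 / 5 * -u ≤ 1 / 2),
        max_eq_right (by linarith)]
      ring
    · rw [min_eq_left h2, max_eq_right (by norm_num : -(1 / 2 : ℝ) ≤ 1 / 2),
        min_eq_right (by linarith : 12 / 5 * -u ≤ 1 / 2),
        max_eq_left (by linarith : 12 / 5 * -u ≤ -(1 / 2))]

theorem abs_gcl (u : ℝ) : |gcl u| ≤ 1 / 2 := by
  unfold gcl
  rw [abs_le]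
  exact ⟨le_max_left _ _, max_le (by norm_num) (min_le_left _ _)⟩

/-- The diagonal part of the lower bound for the kernel. -/
noncomputable def psi (u : ℝ) : ℝ := 3 * u * gcl u - 2 / 5 * u ^ 2 - 5 / 8 * gcl u ^ 2

theorem psi_neg (u : ℝ) : psi (-u) = psi u := by
  unfold psi
  rw [gcl_neg]
  ring

theorem psi_zero : psi 0 = 0 := by
  have := gcl_neg 0
  rw [neg_zero] at this
  have h0 : gcl 0 = 0 := by linarith
  unfold psi
  rw [h0]
  norm_num

theorem psi_ge {u : ℝ} (hu : 0 ≤ u) :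
    3 / 2 * u - 2 / 5 * u ^ 2 - 5 / 32 + 18 / 5 * max 0 (5 / 24 - u) ^ 2 ≤ psi u := by
  unfold psi gcl
  rcases le_total (5 / 24) u with h | h
  · rw [min_eq_left (by linarith : 1 / 2 ≤ 12 / 5 * u),
      max_eq_right (by norm_num : -(1 / 2 : ℝ) ≤ 1 / 2),
      max_eq_left (by linarith : 5 / 24 - u ≤ 0)]
    nlinarith
  · rw [min_eq_right (by linarith : 12 / 5 * u ≤ 1 / 2),
      max_eq_right (by linarith : -(1 / 2) ≤ 12 / 5 * u),
      max_eq_right (by linarith : 0 ≤ 5 / 24 - u)]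
    nlinarith

theorem mul_gcl_le (u : ℝ) : u * gcl u ≤ |u| / 2 := by
  calc u * gcl u ≤ |u * gcl u| := le_abs_self _
    _ = |u| * |gcl u| := abs_mul _ _
    _ ≤ |u| * (1 / 2) := mul_le_mul_of_nonneg_left (abs_gcl u) (abs_nonneg u)
    _ = |u| / 2 := by ring

/-- The quadratic form inequality. -/
theorem quad {m : ℕ} (u G : Fin m → ℝ) :
    (m : ℝ) * ∑ x, (3 * u x * G x - 2 / 5 * u x ^ 2 - 5 / 8 * G x ^ 2) ≤
      ∑ x, ∑ y, (u x + u y) * (G x + G y) := by
  have h1 : ∑ x, ∑ y, (u x + u y) * (G x + G y) =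
      2 * m * ∑ x, u x * G x + 2 * (∑ x, u x) * ∑ x, G x := by
    have e : ∀ x, ∑ y, (u x + u y) * (G x + G y) =
        m * (u x * G x) + u x * ∑ y, G y + G x * ∑ y, u y + ∑ y, u y * G y := by
      intro x
      rw [Finset.mul_sum, Finset.mul_sum, show (m : ℝ) * (u x * G x) = ∑ _y : Fin m, u x * G x by
        rw [Finset.sum_const, Finset.card_univ, Fintype.card_fin, nsmul_eq_mul],
        ← Finset.sum_add_distrib, ← Finset.sum_add_distrib, ← Finset.sum_add_distrib]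
      apply Finset.sum_congr rfl
      intro y _
      ring
    rw [Finset.sum_congr rfl (fun x _ => e x), Finset.sum_add_distrib, Finset.sum_add_distrib,
      Finset.sum_add_distrib, ← Finset.mul_sum, ← Finset.sum_mul, ← Finset.sum_mul,
      Finset.sum_const, Finset.card_univ, Fintype.card_fin, nsmul_eq_mul]
    ring
  have h2 : (∑ x, (4 / 5 * u x - G x)) ^ 2 ≤ m * ∑ x, (4 / 5 * u x - G x) ^ 2 := by
    have := sq_sum_le_card_mul_sum_sq (s := (Finset.univ : Finset (Fin m)))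
      (f := fun x => 4 / 5 * u x - G x)
    simpa using this
  have h3 : ∑ x, (4 / 5 * u x - G x) = 4 / 5 * ∑ x, u x - ∑ x, G x := by
    rw [Finset.mul_sum, ← Finset.sum_sub_distrib]
  have h4 : ∑ x, (3 * u x * G x - 2 / 5 * u x ^ 2 - 5 / 8 * G x ^ 2) =
      2 * ∑ x, u x * G x - 5 / 8 * ∑ x, (4 / 5 * u x - G x) ^ 2 := by
    rw [Finset.mul_sum, Finset.mul_sum, ← Finset.sum_sub_distrib]
    apply Finset.sum_congr rfl
    intro x _
    ring
  rw [h1, h4]
  rw [h3] at h2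
  nlinarith [sq_nonneg (4 / 5 * ∑ x, u x + ∑ x, G x)]

theorem cube {w δ : ℝ} (hδ : 0 < δ) :
    max 0 (w + δ) ^ 3 - max 0 (w - δ) ^ 3 ≤ 6 * δ * max 0 w ^ 2 + 8 * δ ^ 3 := by
  have hδ3 : 0 < δ ^ 3 := by positivity
  rcases le_total δ w with h1 | h1
  · rw [max_eq_right (by linarith), max_eq_right (by linarith), max_eq_right (by linarith)]
    nlinarith
  · rcases le_total 0 w with h2 | h2
    · rw [max_eq_right (by linarith), max_eq_left (by linarith), max_eq_right (by linarith)]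
      have a1 : w ^ 3 ≤ δ * w ^ 2 := by nlinarith [sq_nonneg w]
      have a2 : w * δ ^ 2 ≤ δ ^ 3 := by nlinarith [sq_nonneg δ]
      nlinarith [mul_nonneg hδ.le (sq_nonneg w)]
    · rw [max_eq_left (show w - δ ≤ 0 by linarith), max_eq_left h2]
      rcases le_total 0 (w + δ) with h3 | h3
      · rw [max_eq_right h3]
        have : (w + δ) ^ 3 ≤ δ ^ 3 := pow_le_pow_left₀ h3 (by linarith) 3
        nlinarith
      · rw [max_eq_left h3]
        nlinarith

theorem sum_odd (h : ℕ) : ∑ i ∈ Finset.range h, (2 * (i : ℝ) + 1) = (h : ℝ) ^ 2 := by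
  induction h with
  | zero => simp
  | succ k ih => rw [Finset.sum_range_succ, ih]; push_cast; ring

theorem sum_odd_sq (h : ℕ) :
    ∑ i ∈ Finset.range h, (2 * (i : ℝ) + 1) ^ 2 = (h : ℝ) * (4 * (h : ℝ) ^ 2 - 1) / 3 := by
  induction h with
  | zero => simp
  | succ k ih => rw [Finset.sum_range_succ, ih]; push_cast; ring

/-- The sum of an even function over the values `1 - 2 j / n`. -/
theorem sum_even {F : ℝ → ℝ} (hF : ∀ u, F (-u) = F u) (h : ℕ) :
    ∑ j ∈ Finset.Ico 1 (2 * h + 1), F (1 - 2 * j / ((2 * h + 1 : ℕ) : ℝ)) =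
      2 * ∑ i ∈ Finset.range h, F ((2 * i + 1) / (2 * h + 1)) := by
  have hn : (2 * (h : ℝ) + 1) ≠ 0 := by positivity
  rw [← Finset.sum_Ico_consecutive _ (show 1 ≤ h + 1 by omega) (show h + 1 ≤ 2 * h + 1 by omega)]
  have e1 : ∑ j ∈ Finset.Ico 1 (h + 1), F (1 - 2 * j / ((2 * h + 1 : ℕ) : ℝ)) =
      ∑ i ∈ Finset.range h, F ((2 * i + 1) / (2 * h + 1)) := by
    rw [← Finset.sum_range_reflect, Finset.sum_Ico_eq_sum_range, show h + 1 - 1 = h by omega]
    apply Finset.sum_congr rfl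
    intro j hj
    rw [Finset.mem_range] at hj
    congr 1
    have : ((h - 1 - j : ℕ) : ℝ) = h - 1 - j := by
      rw [Nat.cast_sub (by omega), Nat.cast_sub (by omega)]; simp
    rw [this]
    push_cast
    field_simp
    ring
  have e2 : ∑ j ∈ Finset.Ico (h + 1) (2 * h + 1), F (1 - 2 * j / ((2 * h + 1 : ℕ) : ℝ)) =
      ∑ i ∈ Finset.range h, F ((2 * i + 1) / (2 * h + 1)) := by
    rw [Finset.sum_Ico_eq_sum_range, show 2 * h + 1 - (h + 1) = h by omega]
    apply Finset.sum_congr rfl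
    intro j hj
    rw [← hF]
    congr 1
    push_cast
    field_simp
    ring
  rw [e1, e2]
  ring

/-- The lower bound for the diagonal part. -/
theorem psi_sum (h : ℕ) : 5429 / 2880 * (h : ℝ) ^ 2 - h - 5 ≤
    (2 * h + 1) * ∑ j ∈ Finset.Ico 1 (2 * h + 1), psi (1 - 2 * j / ((2 * h + 1 : ℕ) : ℝ)) := by
  rw [sum_even psi_neg]
  rcases Nat.eq_zero_or_pos h with h0 | hpos
  · subst h0
    simp
  have hh : (1 : ℝ) ≤ h := by exact_mod_cast hpos
  set n : ℝ := 2 * h + 1 with hn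
  have hn0 : 0 < n := by positivity
  have hsum : ∑ i ∈ Finset.range h, (3 / 2 * ((2 * (i : ℝ) + 1) / n) -
      2 / 5 * ((2 * (i : ℝ) + 1) / n) ^ 2 - 5 / 32 +
      18 / 5 * max 0 (5 / 24 - (2 * (i : ℝ) + 1) / n) ^ 2) ≤
      ∑ i ∈ Finset.range h, psi ((2 * i + 1) / n) := by
    apply Finset.sum_le_sum
    intro i _
    exact psi_ge (by positivity)
  have hr : (5 / 24 : ℝ) ^ 3 ≤ 6 / n * ∑ i ∈ Finset.range h,
      max 0 (5 / 24 - (2 * (i : ℝ) + 1) / n) ^ 2 + h * (8 / n ^ 3) := by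
    have ht := Finset.sum_range_sub' (fun i : ℕ => max 0 (5 / 24 - 2 * (i : ℝ) / n) ^ 3) h
    have hle : ∑ i ∈ Finset.range h, (max 0 (5 / 24 - 2 * (i : ℝ) / n) ^ 3 -
        max 0 (5 / 24 - 2 * ((i + 1 : ℕ) : ℝ) / n) ^ 3) ≤ ∑ i ∈ Finset.range h,
        (6 / n * max 0 (5 / 24 - (2 * (i : ℝ) + 1) / n) ^ 2 + 8 / n ^ 3) := by
      apply Finset.sum_le_sum
      intro i _
      have := cube (w := 5 / 24 - (2 * (i : ℝ) + 1) / n) (δ := 1 / n) (by positivity)
      rw [show 5 / 24 - (2 * (i : ℝ) + 1) / n + 1 / n = 5 / 24 - 2 * (i : ℝ) / n by ring,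
        show 5 / 24 - (2 * (i : ℝ) + 1) / n - 1 / n = 5 / 24 - 2 * ((i + 1 : ℕ) : ℝ) / n by
          push_cast; ring] at this
      calc _ ≤ _ := this
        _ = _ := by ring
    rw [ht] at hle
    have hlast : max 0 (5 / 24 - 2 * (h : ℝ) / n) = 0 := by
      apply max_eq_left
      have : 5 / 24 ≤ 2 * (h : ℝ) / n := by
        rw [le_div_iff₀ hn0, hn]
        linarith
      linarith
    rw [hlast] at hle
    rw [Finset.sum_add_distrib, ← Finset.mul_sum, Finset.sum_const, Finset.card_range,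
      nsmul_eq_mul] at hle
    have h5 : max 0 (5 / 24 - 2 * ((0 : ℕ) : ℝ) / n) = 5 / 24 := by
      rw [Nat.cast_zero, mul_zero, zero_div, sub_zero]
      exact max_eq_right (by norm_num)
    rw [h5] at hle
    linarith
  set R := ∑ i ∈ Finset.range h, max 0 (5 / 24 - (2 * (i : ℝ) + 1) / n) ^ 2 with hR
  have hsum2 : ∑ i ∈ Finset.range h, (3 / 2 * ((2 * (i : ℝ) + 1) / n) -
      2 / 5 * ((2 * (i : ℝ) + 1) / n) ^ 2 - 5 / 32 +
      18 / 5 * max 0 (5 / 24 - (2 * (i : ℝ) + 1) / n) ^ 2) =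
      3 / 2 * (h ^ 2 / n) - 2 / 5 * (h * (4 * h ^ 2 - 1) / 3 / n ^ 2) - 5 / 32 * h + 18 / 5 * R := by
    rw [← sum_odd_sq h, ← sum_odd h, hR, Finset.mul_sum, Finset.sum_add_distrib,
      Finset.sum_sub_distrib, Finset.sum_sub_distrib, Finset.sum_const, Finset.card_range,
      nsmul_eq_mul, Finset.sum_div, Finset.sum_div, Finset.mul_sum, Finset.mul_sum]
    congr 1
    congr 1
    · congr 1
      apply Finset.sum_congr rfl
      intro i _
      rw [div_pow]
    · ring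
  rw [hsum2] at hsum
  -- the remaining arithmetic
  have hRlow : n ^ 2 * (5 / 24) ^ 3 / 6 - 2 / 3 ≤ n * R := by
    have h1 : (5 / 24 : ℝ) ^ 3 * n ^ 2 ≤ 6 * (n * R) + 8 * h / n := by
      have h2 := mul_le_mul_of_nonneg_right hr (by positivity : (0 : ℝ) ≤ n ^ 2)
      calc (5 / 24 : ℝ) ^ 3 * n ^ 2 ≤ (6 / n * R + h * (8 / n ^ 3)) * n ^ 2 := h2
        _ = 6 * (n * R) + 8 * h / n := by field_simp
    have h3 : 8 * (h : ℝ) / n ≤ 4 := by
      rw [div_le_iff₀ hn0, hn]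
      linarith
    linarith
  have hfin : n * (2 * (3 / 2 * (h ^ 2 / n) - 2 / 5 * (h * (4 * h ^ 2 - 1) / 3 / n ^ 2)
      - 5 / 32 * h + 18 / 5 * R)) =
      3 * (h : ℝ) ^ 2 - 4 / 15 * (h * (2 * h - 1)) - 5 / 16 * (h * n) + 36 / 5 * (n * R) := by
    have e : (h : ℝ) * (4 * h ^ 2 - 1) / 3 / n ^ 2 = h * (2 * h - 1) / 3 / n := by
      rw [show (h : ℝ) * (4 * h ^ 2 - 1) = h * (2 * h - 1) * n by rw [hn]; ring]
      field_simp
    rw [e]
    field_simp
    ring
  calc 5429 / 2880 * (h : ℝ) ^ 2 - h - 5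
      ≤ 3 * (h : ℝ) ^ 2 - 4 / 15 * (h * (2 * h - 1)) - 5 / 16 * (h * n) +
        36 / 5 * (n ^ 2 * (5 / 24) ^ 3 / 6 - 2 / 3) := by
        rw [hn]
        nlinarith
    _ ≤ 3 * (h : ℝ) ^ 2 - 4 / 15 * (h * (2 * h - 1)) - 5 / 16 * (h * n) + 36 / 5 * (n * R) := by
        linarith
    _ = _ := hfin.symm
    _ ≤ _ := by
        apply mul_le_mul_of_nonneg_left _ hn0.le
        linarith

/-- The sum of the absolute values over a row. -/
theorem abs_sum (h : ℕ) :
    (2 * h + 1) * ∑ j ∈ Finset.Ico 1 (2 * h + 1), |1 - 2 * j / ((2 * h + 1 : ℕ) : ℝ)| =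
      2 * (h : ℝ) ^ 2 := by
  rw [sum_even (F := fun u => |u|) (fun u => abs_neg u)]
  have hn : (2 * (h : ℝ) + 1) ≠ 0 := by positivity
  rw [← sum_odd h, show ∑ i ∈ Finset.range h, |(2 * (i : ℝ) + 1) / (2 * h + 1)| =
    (∑ i ∈ Finset.range h, (2 * (i : ℝ) + 1)) / (2 * h + 1) by
      rw [Finset.sum_div]
      apply Finset.sum_congr rfl
      intro i _
      exact abs_of_nonneg (by positivity)]
  field_simp

end Vale.Agent.P040.Gen
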