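import Vale.Agent.P040.Gen.Surgery2
import Vale.Agent.P040.DrawingClasses

/-!
# Every drawing can be uncrossed at all vertices without increasing the number of crossings
-/

namespace Vale.Agent.P040.Unc

open Set Filter Topology

theorem surgery {S T : Set Plane} {x a b : Plane} (hS : IsArc S x a) (hT : IsArc T x b)
    (ha : a ∉ T) (hb : b ∉ S) (hfin : (S ∩ T).Finite)
    (hcross : ∀ y ∈ S, y ∈ T → y ≠ x → CrossAt S T y) (hne : ∃ y ∈ S, y ∈ T ∧ y ≠ x)
    {O : Set Plane} (hO : IsOpen O) (hSTO : ∀ y ∈ S, y ∈ T → y ≠ x → y ∈ O) (hxO : x ∉ O)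
    (haO : a ∉ O) (hbO : b ∉ O) :
    ∃ S' T' N : Set Plane, ∃ p, Surg S T x a b O S' T' N p := by
  obtain ⟨γ, hγ, hγi, hγ0, hγ1, rfl⟩ := hS
  obtain ⟨δ, hδ, hδi, hδ0, hδ1, rfl⟩ := hT
  subst hγ0
  subst hγ1
  subst hδ1
  -- the first point of `S` on `T`
  have hA : {s ∈ Icc (0 : ℝ) 1 | γ s ∈ δ '' Icc 0 1 ∧ γ s ≠ γ 0}.Finite := by
    apply Set.Finite.of_finite_image (f := γ)
    · apply hfin.subset
      rintro y ⟨s, ⟨hs, h2, -⟩, rfl⟩
      exact ⟨⟨s, hs, rfl⟩, h2⟩
    · exact hγi.mono fun s hs => hs.1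
  have hAne : {s ∈ Icc (0 : ℝ) 1 | γ s ∈ δ '' Icc 0 1 ∧ γ s ≠ γ 0}.Nonempty := by
    obtain ⟨y, ⟨s, hs, rfl⟩, h2, h3⟩ := hne
    exact ⟨s, hs, h2, h3⟩
  obtain ⟨sp, ⟨hsp, hspT, hspx⟩, hmin⟩ := Set.exists_min_image _ id hA hAne
  have hpO : γ sp ∈ O := hSTO _ ⟨sp, hsp, rfl⟩ hspT hspx
  obtain ⟨tp, htp, hpt⟩ := hspT
  have hsp0 : 0 < sp := by
    rcases hsp.1.eq_or_lt with e | e
    · exact absurd (by rw [e]) hspx
    · exact e
  have hsp1 : sp < 1 := by
    rcases hsp.2.eq_or_lt with e | e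
    · rw [e] at hpt
      exact absurd ⟨tp, htp, hpt⟩ ha
    · exact e
  have htp0 : 0 < tp := by
    rcases htp.1.eq_or_lt with e | e
    · rw [← e, hδ0] at hpt
      exact absurd hpt.symm hspx
    · exact e
  have htp1 : tp < 1 := by
    rcases htp.2.eq_or_lt with e | e
    · rw [e] at hpt
      exact absurd ⟨sp, hsp, hpt.symm⟩ hb
    · exact e
  have P1 : ∀ s, 0 < s → s < sp → γ s ∉ δ '' Icc 0 1 := by
    intro s h1 h2 h3
    have hs : s ∈ Icc (0 : ℝ) 1 := ⟨h1.le, by linarith⟩
    have := hmin s ⟨hs, h3, fun h => h1.ne' (hγi hs (by simp) h)⟩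
    simp only [id] at this
    linarith
  -- the last point of `S` on the beginning of `T`
  have hB : {s ∈ Icc (0 : ℝ) 1 | γ s ∈ δ '' Icc 0 tp ∧ γ s ≠ γ 0}.Finite := by
    apply hA.subset
    rintro s ⟨hs, h2, h3⟩
    exact ⟨hs, image_mono (Icc_subset_Icc_right htp.2) h2, h3⟩
  obtain ⟨sq, ⟨hsq, hsqT, hsqx⟩, hmax⟩ := Set.exists_max_image _ id hB
    ⟨sp, hsp, ⟨tp, ⟨htp.1, le_rfl⟩, hpt⟩, hspx⟩
  obtain ⟨tq, htq, hqt⟩ := hsqT
  have hspq : sp ≤ sq := hmax sp ⟨hsp, ⟨tp, ⟨htp.1, le_rfl⟩, hpt⟩, hspx⟩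
  have P2 : ∀ s, sq < s → s ≤ 1 → γ s ∉ δ '' Icc 0 tp := by
    intro s h1 h2 h3
    have hs : s ∈ Icc (0 : ℝ) 1 := ⟨by linarith [hsq.1], h2⟩
    have := hmax s ⟨hs, h3, fun h => (by linarith [hsq.1] : s ≠ 0) (hγi hs (by simp) h)⟩
    simp only [id] at this
    linarith
  have htq0 : 0 < tq := by
    rcases htq.1.eq_or_lt with e | e
    · rw [← e, hδ0] at hqt
      exact absurd hqt.symm hsqx
    · exact e
  have hsq1 : sq < 1 := by
    rcases hsq.2.eq_or_lt with e | e
    · rw [e] at hqt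
      exact absurd ⟨tq, ⟨htq.1, by linarith [htq.2]⟩, hqt⟩ ha
    · exact e
  rcases hspq.eq_or_lt with hpq | hpq
  · -- the same point
    subst hpq
    obtain ⟨ε, hε, H, h, k, a1, a2, a3, a4, a5, a6, a7, a8, a9, a10⟩ :=
      oriented_chart hγ hγi hδ hδi
        (hcross _ ⟨sp, hsp, rfl⟩ ⟨tp, htp, hpt⟩ hspx) hO hpO
    exact ⟨_, _, _, _, surgery_eq hγ hγi hδ hδi hδ0 ha hb hsp0 hsp1 htp0 htp1 hpt.symm P1 P2 hε
      a1 a2 a3 a4 a5 a6 a7 a8 a9 a10 hxO haO hbO⟩
  · have htqp : tq < tp := by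
      rcases htq.2.eq_or_lt with e | e
      · exfalso
        rw [e, hpt] at hqt
        exact hpq.ne (hγi hsp hsq hqt)
      · exact e
    exact ⟨_, _, _, _, surgery_ne hγ hγi hδ hδi hδ0 ha hb hsp0 hpq hsq1 htq0 htqp htp1 hpt.symm
      hqt.symm P1 P2 O⟩

end Vale.Agent.P040.Unc

namespace Vale.Agent.P040.Drawing

open Set Filter Topology Unc

variable {V : Type} {G : SimpleGraph V}

/-- Replacing the arcs of a drawing. -/
theorem replace [Finite V] (D : Drawing G) (arc' : Sym2 V → Set Plane)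
    (hArc : ∀ u v, G.Adj u v → IsArc (arc' s(u, v)) (D.pos u) (D.pos v))
    (havoid : ∀ e ∈ G.edgeSet, ∀ w, D.pos w ∈ arc' e → w ∈ e)
    (hH : ∀ y, y ∉ range D.pos →
      (∀ e ∈ G.edgeSet, ∀ f ∈ G.edgeSet, y ∈ arc' e → y ∈ arc' f → e = f) ∨
      ∃ σ : Sym2 V → Sym2 V, (∀ e ∈ G.edgeSet, σ e ∈ G.edgeSet) ∧ InjOn σ G.edgeSet ∧
        ∀ e ∈ G.edgeSet, y ∈ arc' e → Germ (arc' e) (D.arc (σ e)) y)
    {p : Plane} (hp : p ∈ D.crossingSet)
    (hp' : ∀ e ∈ G.edgeSet, ∀ f ∈ G.edgeSet, e ≠ f → p ∈ arc' e → p ∉ arc' f) :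
    ∃ D' : Drawing G, D'.crossings < D.crossings := by
  have key : ∀ e ∈ G.edgeSet, ∀ f ∈ G.edgeSet, e ≠ f → ∀ y, y ∉ range D.pos → y ∈ arc' e →
      y ∈ arc' f → ∃ σ : Sym2 V → Sym2 V, (∀ e ∈ G.edgeSet, σ e ∈ G.edgeSet) ∧
        InjOn σ G.edgeSet ∧ ∀ e ∈ G.edgeSet, y ∈ arc' e → Germ (arc' e) (D.arc (σ e)) y := by
    intro e he f hf hef y hy hye hyf
    rcases hH y hy with h | h
    · exact absurd (h e he f hf hye hyf) hef
    · exact h
  have key2 : ∀ e ∈ G.edgeSet, ∀ f ∈ G.edgeSet, e ≠ f → ∀ y, y ∉ range D.pos → y ∈ arc' e →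
      y ∈ arc' f → y ∈ D.crossingSet := by
    intro e he f hf hef y hy hye hyf
    obtain ⟨σ, h1, h2, h3⟩ := key e he f hf hef y hy hye hyf
    exact ⟨hy, σ e, h1 e he, σ f, h1 f hf, fun h => hef (h2 he hf h), (h3 e he hye).mem.1 hye,
      (h3 f hf hyf).mem.1 hyf⟩
  let D' : Drawing G :=
    { pos := D.pos
      pos_inj := D.pos_inj
      arc := arc'
      isArc := hArc
      avoid := havoid
      finite := by
        intro e he f hf hef
        apply D.crossingSet_finite.subset
        rintro y ⟨⟨h1, h2⟩, h3, -⟩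
        exact key2 e he f hf hef y h2 h1 h3
      proper := by
        rintro e he f hf hef y ⟨⟨h1, h2⟩, h3, -⟩
        obtain ⟨σ, k1, k2, k3⟩ := key e he f hf hef y h2 h1 h3
        exact (D.proper (σ e) (k1 e he) (σ f) (k1 f hf) (fun h => hef (k2 he hf h)) y
          ⟨⟨(k3 e he h1).mem.1 h1, h2⟩, (k3 f hf h3).mem.1 h3, h2⟩).germ (k3 e he h1) (k3 f hf h3)
      two := by
        intro e he f hf g hg hef heg hfg y hy h1 h2 h3
        obtain ⟨σ, k1, k2, k3⟩ := key e he f hf hef y hy h1 h2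
        exact D.two (σ e) (k1 e he) (σ f) (k1 f hf) (σ g) (k1 g hg) (fun h => hef (k2 he hf h))
          (fun h => heg (k2 he hg h)) (fun h => hfg (k2 hf hg h)) y hy
          ((k3 e he h1).mem.1 h1) ((k3 f hf h2).mem.1 h2) ((k3 g hg h3).mem.1 h3) }
  refine ⟨D', ?_⟩
  have hsub : D'.crossingSet ⊆ D.crossingSet \ {p} := by
    rintro y ⟨hy, e, he, f, hf, hef, h1, h2⟩
    refine ⟨key2 e he f hf hef y hy h1 h2, ?_⟩
    rintro rfl
    exact hp' e he f hf hef h1 h2
  calc D'.crossings = D'.crossingSet.ncard := rfl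
    _ ≤ (D.crossingSet \ {p}).ncard := ncard_le_ncard hsub (D.crossingSet_finite.sdiff)
    _ < D.crossingSet.ncard := ncard_sdiff_singleton_lt_of_mem hp D.crossingSet_finite

/-- If two edges with a common end cross, then the number of crossings can be reduced. -/
theorem reduce [Finite V] (D : Drawing G) {v a b : V} (hva : G.Adj v a) (hvb : G.Adj v b)
    (hab : a ≠ b) {y : Plane} (hy1 : y ∈ D.arc s(v, a)) (hy2 : y ∈ D.arc s(v, b))
    (hy : y ≠ D.pos v) : ∃ D' : Drawing G, D'.crossings < D.crossings := by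
  classical
  have e1 : s(v, a) ∈ G.edgeSet := hva
  have e2 : s(v, b) ∈ G.edgeSet := hvb
  have hva' : v ≠ a := hva.ne
  have hvb' : v ≠ b := hvb.ne
  have e12 : s(v, a) ≠ s(v, b) := by
    intro h
    rw [Sym2.eq_iff] at h
    rcases h with h | h
    · exact hab h.2
    · exact hvb' h.1
  have hab' : D.pos a ∉ D.arc s(v, b) := by
    intro h
    have := D.avoid _ e2 a h
    rw [Sym2.mem_iff] at this
    rcases this with h | h
    · exact hva' h.symm
    · exact hab h
  have hba' : D.pos b ∉ D.arc s(v, a) := by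
    intro h
    have := D.avoid _ e1 b h
    rw [Sym2.mem_iff] at this
    rcases this with h | h
    · exact hvb' h.symm
    · exact hab h.symm
  have hrange : ∀ z ∈ D.arc s(v, a), z ∈ D.arc s(v, b) → z ≠ D.pos v → z ∉ range D.pos := by
    rintro z h1 h2 h3 ⟨w, rfl⟩
    have k1 := D.avoid _ e1 w h1
    have k2 := D.avoid _ e2 w h2
    rw [Sym2.mem_iff] at k1 k2
    rcases k1 with rfl | rfl
    · exact h3 rfl
    · rcases k2 with h | h
      · exact hva' h.symm
      · exact hab h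
  have hfin : (D.arc s(v, a) ∩ D.arc s(v, b)).Finite := by
    apply ((D.finite _ e1 _ e2 e12).insert (D.pos v)).subset
    rintro z ⟨h1, h2⟩
    by_cases h3 : z = D.pos v
    · exact Or.inl h3
    · exact Or.inr ⟨⟨h1, hrange z h1 h2 h3⟩, h2, hrange z h1 h2 h3⟩
  -- the complement of the other edges and of the vertices
  set F : Set Plane := (⋃ e ∈ {e | e ∈ G.edgeSet ∧ e ≠ s(v, a) ∧ e ≠ s(v, b)}, D.arc e) ∪
    range D.pos with hF
  have hFc : IsClosed F := by
    apply IsClosed.union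
    · apply Set.Finite.isClosed_biUnion (Set.toFinite _)
      rintro e ⟨he, -⟩
      induction e using Sym2.ind with
      | _ u w => exact (D.isArc u w he).isClosed
    · exact (Set.finite_range D.pos).isClosed
  have hO : ∀ z ∈ D.arc s(v, a), z ∈ D.arc s(v, b) → z ≠ D.pos v → z ∈ Fᶜ := by
    intro z h1 h2 h3 h4
    have hz := hrange z h1 h2 h3
    rcases h4 with h4 | h4
    · simp only [mem_iUnion] at h4
      obtain ⟨e, ⟨he, hne1, hne2⟩, hze⟩ := h4
      exact D.two _ e1 _ e2 _ he e12 (Ne.symm hne1) (Ne.symm hne2) z hz h1 h2 hze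
    · exact hz h4
  obtain ⟨S', T', N, p, hs⟩ := surgery (D.isArc v a hva) (D.isArc v b hvb) hab' hba' hfin
    (fun z h1 h2 h3 => D.proper _ e1 _ e2 e12 z ⟨⟨h1, hrange z h1 h2 h3⟩, h2, hrange z h1 h2 h3⟩)
    ⟨y, hy1, hy2, hy⟩ hFc.isOpen_compl hO (fun h => h (Or.inr ⟨v, rfl⟩))
    (fun h => h (Or.inr ⟨a, rfl⟩)) (fun h => h (Or.inr ⟨b, rfl⟩))
  have hNpos : ∀ w, D.pos w ∉ N := fun w h => hs.subN h (Or.inr ⟨w, rfl⟩)
  have hNoth : ∀ e ∈ G.edgeSet, e ≠ s(v, a) → e ≠ s(v, b) → ∀ z ∈ D.arc e, z ∉ N := by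
    intro e he h1 h2 z hz hzN
    apply hs.subN hzN
    left
    simp only [mem_iUnion]
    exact ⟨e, ⟨he, h1, h2⟩, hz⟩
  -- a point on both old arcs lies on no other arc
  have hboth : ∀ z ∈ D.arc s(v, a), z ∈ D.arc s(v, b) → z ∉ range D.pos →
      ∀ e ∈ G.edgeSet, z ∈ D.arc e → e = s(v, a) ∨ e = s(v, b) := by
    intro z h1 h2 h3 e he hz
    by_contra hcon
    push Not at hcon
    exact D.two _ e1 _ e2 _ he e12 (Ne.symm hcon.1) (Ne.symm hcon.2) z h3 h1 h2 hz
  set arc' : Sym2 V → Set Plane := fun e =>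
    if e = s(v, a) then S' else if e = s(v, b) then T' else D.arc e with harc'
  have A1 : arc' s(v, a) = S' := by simp [harc']
  have A2 : arc' s(v, b) = T' := by simp [harc', Ne.symm e12]
  have A3 : ∀ e, e ≠ s(v, a) → e ≠ s(v, b) → arc' e = D.arc e := by
    intro e h1 h2; simp [harc', h1, h2]
  have hpr : p ∉ range D.pos := hrange p hs.pS hs.pT hs.px
  refine D.replace arc' ?_ ?_ ?_ (p := p) ⟨hpr, _, e1, _, e2, e12, hs.pS, hs.pT⟩ ?_
  · -- arcs
    intro u w huw
    by_cases h1 : s(u, w) = s(v, a)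
    · rw [h1, A1]
      rw [Sym2.eq_iff] at h1
      rcases h1 with ⟨rfl, rfl⟩ | ⟨rfl, rfl⟩
      · exact hs.arcS
      · exact hs.arcS.symm
    · by_cases h2 : s(u, w) = s(v, b)
      · rw [h2, A2]
        rw [Sym2.eq_iff] at h2
        rcases h2 with ⟨rfl, rfl⟩ | ⟨rfl, rfl⟩
        · exact hs.arcT
        · exact hs.arcT.symm
      · rw [A3 _ h1 h2]
        exact D.isArc u w huw
  · -- vertices
    intro e he w hw
    by_cases h1 : e = s(v, a)
    · subst h1
      rw [A1] at hw
      have hwb : w ≠ b := fun h => hs.bS (h ▸ hw)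
      rcases hs.germS _ hw (hNpos w) with h | h | h
      · exact D.avoid _ e1 w h.1
      · exact D.avoid _ e1 w (h.mem.1 hw)
      · have := D.avoid _ e2 w (h.mem.1 hw)
        rw [Sym2.mem_iff] at this ⊢
        exact Or.inl (this.resolve_right hwb)
    · by_cases h2 : e = s(v, b)
      · subst h2
        rw [A2] at hw
        have hwa : w ≠ a := fun h => hs.aT (h ▸ hw)
        rcases hs.germT _ hw (hNpos w) with h | h | h
        · exact D.avoid _ e2 w h.2
        · have := D.avoid _ e1 w (h.mem.1 hw)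
          rw [Sym2.mem_iff] at this ⊢
          exact Or.inl (this.resolve_right hwa)
        · exact D.avoid _ e2 w (h.mem.1 hw)
      · rw [A3 _ h1 h2] at hw
        exact D.avoid _ he w hw
  · -- germs
    intro z hz
    have id_ok : ((z ∈ S' → Germ S' (D.arc s(v, a)) z) ∧ (z ∈ T' → Germ T' (D.arc s(v, b)) z)) →
        ∃ σ : Sym2 V → Sym2 V, (∀ e ∈ G.edgeSet, σ e ∈ G.edgeSet) ∧ InjOn σ G.edgeSet ∧
        ∀ e ∈ G.edgeSet, z ∈ arc' e → Germ (arc' e) (D.arc (σ e)) z := by
      rintro ⟨h1, h2⟩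
      refine ⟨id, fun e he => he, injOn_id _, ?_⟩
      intro e he hze
      by_cases k1 : e = s(v, a)
      · subst k1
        rw [A1] at hze ⊢
        exact h1 hze
      · by_cases k2 : e = s(v, b)
        · subst k2
          rw [A2] at hze ⊢
          exact h2 hze
        · rw [A3 _ k1 k2]
          exact Germ.refl _ _
    have swap_ok : ((z ∈ S' → Germ S' (D.arc s(v, b)) z) ∧ (z ∈ T' → Germ T' (D.arc s(v, a)) z)) →
        ∃ σ : Sym2 V → Sym2 V, (∀ e ∈ G.edgeSet, σ e ∈ G.edgeSet) ∧ InjOn σ G.edgeSet ∧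
        ∀ e ∈ G.edgeSet, z ∈ arc' e → Germ (arc' e) (D.arc (σ e)) z := by
      rintro ⟨h1, h2⟩
      refine ⟨Equiv.swap s(v, a) s(v, b), ?_, (Equiv.injective _).injOn, ?_⟩
      · intro e he
        by_cases k1 : e = s(v, a)
        · subst k1; rw [Equiv.swap_apply_left]; exact e2
        · by_cases k2 : e = s(v, b)
          · subst k2; rw [Equiv.swap_apply_right]; exact e1
          · rw [Equiv.swap_apply_of_ne_of_ne k1 k2]; exact he
      intro e he hze
      by_cases k1 : e = s(v, a)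
      · subst k1
        rw [A1] at hze ⊢
        rw [Equiv.swap_apply_left]
        exact h1 hze
      · by_cases k2 : e = s(v, b)
        · subst k2
          rw [A2] at hze ⊢
          rw [Equiv.swap_apply_right]
          exact h2 hze
        · rw [A3 _ k1 k2, Equiv.swap_apply_of_ne_of_ne k1 k2]
          exact Germ.refl _ _
    -- if no other edge passes through `z` and `z` is not on both new arcs, at most one edge does
    have one : ¬ (z ∈ S' ∧ z ∈ T') →
        (∀ e ∈ G.edgeSet, e ≠ s(v, a) → e ≠ s(v, b) → z ∉ D.arc e) →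
        ∀ e ∈ G.edgeSet, ∀ f ∈ G.edgeSet, z ∈ arc' e → z ∈ arc' f → e = f := by
      intro h1 h2 e he f hf hze hzf
      by_cases k1 : e = s(v, a)
      · subst k1
        rw [A1] at hze
        by_cases l1 : f = s(v, a)
        · exact l1.symm
        · by_cases l2 : f = s(v, b)
          · subst l2
            rw [A2] at hzf
            exact absurd ⟨hze, hzf⟩ h1
          · rw [A3 _ l1 l2] at hzf
            exact absurd hzf (h2 f hf l1 l2)
      · by_cases k2 : e = s(v, b)
        · subst k2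
          rw [A2] at hze
          by_cases l1 : f = s(v, a)
          · subst l1
            rw [A1] at hzf
            exact absurd ⟨hzf, hze⟩ h1
          · by_cases l2 : f = s(v, b)
            · exact l2.symm
            · rw [A3 _ l1 l2] at hzf
              exact absurd hzf (h2 f hf l1 l2)
        · rw [A3 _ k1 k2] at hze
          exact absurd hze (h2 e he k1 k2)
    by_cases hST : z ∈ S' ∧ z ∈ T'
    · right
      rcases hs.inter z hST.1 hST.2 with h | ⟨-, h1, h2⟩
      · exact absurd ⟨v, h.symm⟩ hz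
      · exact id_ok ⟨fun _ => h1, fun _ => h2⟩
    · by_cases hzN : z ∈ N
      · left
        exact one hST fun e he h1 h2 h3 => hNoth e he h1 h2 z h3 hzN
      · by_cases hzS : z ∈ S'
        · have hzT : z ∉ T' := fun h => hST ⟨hzS, h⟩
          rcases hs.germS z hzS hzN with h | h | h
          · left
            refine one hST fun e he h1 h2 h3 => ?_
            rcases hboth z h.1 h.2 hz e he h3 with h4 | h4
            · exact h1 h4
            · exact h2 h4
          · right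
            exact id_ok ⟨fun _ => h, fun h => absurd h hzT⟩
          · right
            exact swap_ok ⟨fun _ => h, fun h => absurd h hzT⟩
        · by_cases hzT : z ∈ T'
          · rcases hs.germT z hzT hzN with h | h | h
            · left
              refine one hST fun e he h1 h2 h3 => ?_
              rcases hboth z h.1 h.2 hz e he h3 with h4 | h4
              · exact h1 h4
              · exact h2 h4
            · right
              exact swap_ok ⟨fun h => absurd h hzS, fun _ => h⟩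
            · right
              exact id_ok ⟨fun h => absurd h hzS, fun _ => h⟩
          · right
            exact id_ok ⟨fun h => absurd h hzS, fun h => absurd h hzT⟩
  · -- the point `p`
    intro e he f hf hef h1 h2
    have hnot : ¬ (p ∈ S' ∧ p ∈ T') := by
      rintro ⟨k1, k2⟩
      rcases hs.inter p k1 k2 with h | h
      · exact hs.px h
      · exact h.1 rfl
    by_cases k1 : e = s(v, a)
    · subst k1
      rw [A1] at h1
      by_cases l2 : f = s(v, b)
      · subst l2
        rw [A2] at h2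
        exact hnot ⟨h1, h2⟩
      · rw [A3 _ (Ne.symm hef) l2] at h2
        rcases hboth p hs.pS hs.pT hpr f hf h2 with h | h
        · exact hef h.symm
        · exact l2 h
    · by_cases k2 : e = s(v, b)
      · subst k2
        rw [A2] at h1
        by_cases l1 : f = s(v, a)
        · subst l1
          rw [A1] at h2
          exact hnot ⟨h2, h1⟩
        · rw [A3 _ l1 (Ne.symm hef)] at h2
          rcases hboth p hs.pS hs.pT hpr f hf h2 with h | h
          · exact l1 h
          · exact hef h.symm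
      · rw [A3 _ k1 k2] at h1
        rcases hboth p hs.pS hs.pT hpr e he h1 with h | h
        · exact k1 h
        · exact k2 h

/-- Every drawing can be changed, without increasing the number of crossings, so that two edges
with a common end meet only there. -/
theorem uncross_gen [Finite V] (D : Drawing G) : ∃ D' : Drawing G, D'.crossings ≤ D.crossings ∧
    ∀ v a b, G.Adj v a → G.Adj v b → a ≠ b → ∀ p ∈ D'.arc s(v, a), p ∈ D'.arc s(v, b) →
      p = D'.pos v := by
  induction hn : D.crossings using Nat.strong_induction_on generalizing D with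
  | _ n ih =>
    by_cases h : ∀ v a b, G.Adj v a → G.Adj v b → a ≠ b → ∀ p ∈ D.arc s(v, a),
        p ∈ D.arc s(v, b) → p = D.pos v
    · exact ⟨D, hn.le, h⟩
    · push Not at h
      obtain ⟨v, a, b, h1, h2, h3, p, h4, h5, h6⟩ := h
      obtain ⟨D', hD'⟩ := D.reduce h1 h2 h3 h4 h5 h6
      obtain ⟨D'', k1, k2⟩ := ih D'.crossings (hn ▸ hD') D' rfl
      exact ⟨D'', by omega, k2⟩

/-- Every drawing of `K_{m,n}` can be uncrossed without increasing the number of crossings. -/
theorem uncross {m n : ℕ} (D : Drawing (K m n)) :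
    ∃ D' : Drawing (K m n), D'.Uncrossed ∧ D'.crossings ≤ D.crossings := by
  obtain ⟨D', h1, h2⟩ := D.uncross_gen
  refine ⟨D', ?_, h1⟩
  intro a b b' hbb p hp hp'
  exact h2 (Sum.inl a) (Sum.inr b) (Sum.inr b') (by simp) (by simp)
    (fun h => hbb (Sum.inr_injective h)) p hp hp'

end Vale.Agent.P040.Drawing
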