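import Vale.Agent.P040.Gen.Star
import Vale.Agent.P040.Gen.Kernel
import Vale.Agent.P040.Gen.Uncross

/-!
# A lower bound for the crossing number of complete bipartite graphs
-/

namespace Vale.Agent.P040.Gen

open Finset

section

variable {n : ℕ}

/-- The function of a cyclic order which defines the circulation. -/
noncomputable def gv (ρ : Equiv.Perm (Fin n)) (b k : Fin n) : ℝ := gcl (av ρ b k)

theorem gv_anti (ρ : Equiv.Perm (Fin n)) (b k : Fin n) : gv ρ k b = - gv ρ b k := by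
  unfold gv
  rw [av_anti, gcl_neg]

theorem gv_row (ρ : Equiv.Perm (Fin n)) (b : Fin n) : ∑ k, gv ρ b k = 0 :=
  row_odd ρ gcl_neg b

theorem diag_le (h : ℕ) (ρ : Equiv.Perm (Fin (2 * h + 1))) :
    ∑ b, ∑ k, (av ρ b k + av ρ b k) * (gv ρ b k + gv ρ b k) ≤ 4 * (h : ℝ) ^ 2 := by
  have h1 : ∀ b, ∑ k, (av ρ b k + av ρ b k) * (gv ρ b k + gv ρ b k) ≤
      2 * ∑ j ∈ Finset.Ico 1 (2 * h + 1), |1 - 2 * j / ((2 * h + 1 : ℕ) : ℝ)| := by
    intro b
    calc ∑ k, (av ρ b k + av ρ b k) * (gv ρ b k + gv ρ b k) ≤ ∑ k, 2 * |av ρ b k| := by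
          apply Finset.sum_le_sum
          intro k _
          have := mul_gcl_le (av ρ b k)
          unfold gv
          nlinarith
      _ = 2 * ∑ k, |av ρ b k| := by rw [Finset.mul_sum]
      _ = _ := by rw [row_sum ρ (fun u => |u|) b, abs_zero, zero_add]
  calc ∑ b, ∑ k, (av ρ b k + av ρ b k) * (gv ρ b k + gv ρ b k)
      ≤ ∑ _b : Fin (2 * h + 1), 2 * ∑ j ∈ Finset.Ico 1 (2 * h + 1),
        |1 - 2 * j / ((2 * h + 1 : ℕ) : ℝ)| := Finset.sum_le_sum fun b _ => h1 b
    _ = 4 * (h : ℝ) ^ 2 := by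
      rw [Finset.sum_const, Finset.card_univ, Fintype.card_fin, nsmul_eq_mul]
      have := abs_sum h
      push_cast at this ⊢
      linarith

theorem psi_total (h : ℕ) (ρ : Equiv.Perm (Fin (2 * h + 1))) :
    5429 / 2880 * (h : ℝ) ^ 2 - h - 5 ≤ ∑ b, ∑ k, psi (av ρ b k) := by
  have h1 : ∀ b, ∑ k, psi (av ρ b k) =
      ∑ j ∈ Finset.Ico 1 (2 * h + 1), psi (1 - 2 * j / ((2 * h + 1 : ℕ) : ℝ)) := by
    intro b
    rw [row_sum, psi_zero, zero_add]
  rw [Finset.sum_congr rfl (fun b _ => h1 b), Finset.sum_const, Finset.card_univ,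
    Fintype.card_fin, nsmul_eq_mul]
  have := psi_sum h
  push_cast at this ⊢
  exact this

end

/-- The lower bound for the sum of the pairs of stars. -/
theorem total_ge {m h : ℕ} (ρ : Fin m → Equiv.Perm (Fin (2 * h + 1))) :
    (m : ℝ) ^ 2 * (5429 / 2880 * (h : ℝ) ^ 2 - h - 5) ≤
      ∑ x, ∑ y, ∑ b, ∑ k, (av (ρ x) b k + av (ρ y) b k) * (gv (ρ x) b k + gv (ρ y) b k) := by
  have h1 : ∑ x, ∑ y, ∑ b, ∑ k, (av (ρ x) b k + av (ρ y) b k) * (gv (ρ x) b k + gv (ρ y) b k) =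
      ∑ b, ∑ k, ∑ x, ∑ y, (av (ρ x) b k + av (ρ y) b k) * (gv (ρ x) b k + gv (ρ y) b k) := by
    calc _ = ∑ x, ∑ b, ∑ y, ∑ k, (av (ρ x) b k + av (ρ y) b k) *
          (gv (ρ x) b k + gv (ρ y) b k) := Finset.sum_congr rfl fun x _ => Finset.sum_comm
      _ = ∑ b, ∑ x, ∑ y, ∑ k, (av (ρ x) b k + av (ρ y) b k) *
          (gv (ρ x) b k + gv (ρ y) b k) := Finset.sum_comm
      _ = ∑ b, ∑ x, ∑ k, ∑ y, (av (ρ x) b k + av (ρ y) b k) *
          (gv (ρ x) b k + gv (ρ y) b k) := Finset.sum_congr rfl fun b _ =>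
            Finset.sum_congr rfl fun x _ => Finset.sum_comm
      _ = _ := Finset.sum_congr rfl fun b _ => Finset.sum_comm
  rw [h1]
  have h2 : ∀ b k, (m : ℝ) * ∑ x, psi (av (ρ x) b k) ≤
      ∑ x, ∑ y, (av (ρ x) b k + av (ρ y) b k) * (gv (ρ x) b k + gv (ρ y) b k) := by
    intro b k
    exact quad (fun x => av (ρ x) b k) (fun x => gv (ρ x) b k)
  calc (m : ℝ) ^ 2 * (5429 / 2880 * (h : ℝ) ^ 2 - h - 5)
      = m * ∑ _x : Fin m, (5429 / 2880 * (h : ℝ) ^ 2 - h - 5) := by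
        rw [Finset.sum_const, Finset.card_univ, Fintype.card_fin, nsmul_eq_mul]
        ring
    _ ≤ m * ∑ x, ∑ b, ∑ k, psi (av (ρ x) b k) :=
        mul_le_mul_of_nonneg_left (Finset.sum_le_sum fun x _ => psi_total h (ρ x))
          (Nat.cast_nonneg m)
    _ = ∑ b, ∑ k, (m : ℝ) * ∑ x, psi (av (ρ x) b k) := by
        rw [Finset.sum_comm, Finset.mul_sum]
        apply Finset.sum_congr rfl
        intro b _
        rw [Finset.sum_comm, Finset.mul_sum]
    _ ≤ _ := Finset.sum_le_sum fun b _ => Finset.sum_le_sum fun k _ => h2 b k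

/-- The lower bound for drawings without crossings of adjacent edges. -/
theorem uncrossed_bound {m n : ℕ} (D : Drawing (K m n)) (hU : D.Uncrossed) {h : ℕ}
    (hn : 2 * h + 1 ≤ n) :
    (m : ℝ) ^ 2 * (5429 / 2880 * (h : ℝ) ^ 2 - h - 5) - 4 * m * (h : ℝ) ^ 2 ≤
      8 * (D.crossings : ℝ) := by
  classical
  obtain ⟨α, hα, hpair⟩ := exists_rotation D hU
  set ι : Fin (2 * h + 1) → Fin n := Fin.castLE hn with hι
  have hιi : Function.Injective ι := Fin.castLE_injective hn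
  have hβ : ∀ x b b', b ≠ b' → ∀ k : ℤ, α x (ι b') - α x (ι b) ≠ k := fun x b b' hbb =>
    hα x _ _ (fun hc => hbb (hιi hc))
  have hrank : ∀ x, ∃ ρ : Equiv.Perm (Fin (2 * h + 1)), ∀ b k,
      ρ b < ρ k ↔ Int.fract (α x (ι b)) < Int.fract (α x (ι k)) := by
    intro x
    apply exists_rank (β := fun b => Int.fract (α x (ι b)))
    intro b k hbk
    by_contra hne
    have hbk : Int.fract (α x (ι b)) = Int.fract (α x (ι k)) := hbk
    rw [Int.fract_eq_fract] at hbk
    obtain ⟨z, hz⟩ := hbk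
    exact hβ x k b (Ne.symm hne) z hz
  choose ρ hρ using hrank
  -- the numbers of crossings
  let A : Fin m → Fin m → Fin n → Fin n → ℕ := fun x y b k =>
    (D.arc s(.inl x, .inr b) ∩ D.arc s(.inl y, .inr k)).ncard
  let S : Fin m → Fin m → ℕ := fun x y =>
    ∑ q ∈ Finset.univ.filter (fun q : Fin n × Fin n => q.1 ≠ q.2), A x y q.1 q.2
  have hAsymm : ∀ x y b k, A x y b k = A y x k b := fun x y b k => by
    simp only [A]; rw [Set.inter_comm]
  have hSsymm : ∀ x y, S x y = S y x := by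
    intro x y
    have : S x y = ∑ q ∈ Finset.univ.filter (fun q : Fin n × Fin n => q.1 ≠ q.2),
        A y x q.2 q.1 := Finset.sum_congr rfl fun q _ => hAsymm x y q.1 q.2
    rw [this]
    exact Finset.sum_bij' (fun q _ => (q.2, q.1)) (fun q _ => (q.2, q.1))
      (by intro q hq; simpa [eq_comm] using hq) (by intro q hq; simpa [eq_comm] using hq)
      (by intro q _; rfl) (by intro q _; rfl) (by intro q _; rfl)
  have hpairs : ∀ (f : Fin (2 * h + 1) → Fin (2 * h + 1) → ℕ),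
      ∑ b, ∑ k ∈ Finset.univ.filter (fun k => b ≠ k), f b k =
      ∑ q ∈ Finset.univ.filter (fun q : Fin (2 * h + 1) × Fin (2 * h + 1) => q.1 ≠ q.2),
        f q.1 q.2 := by
    intro f
    rw [Finset.sum_filter, Fintype.sum_prod_type]
    apply Finset.sum_congr rfl
    intro b _
    rw [Finset.sum_filter]
  have hsub : ∀ x y, ∑ b, ∑ k ∈ Finset.univ.filter (fun k => b ≠ k), A x y (ι b) (ι k) ≤
      S x y := by
    intro x y
    rw [hpairs]
    have hinj : Function.Injective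
        (fun q : Fin (2 * h + 1) × Fin (2 * h + 1) => (ι q.1, ι q.2)) := by
      intro q q' hq
      have := Prod.ext_iff.1 hq
      exact Prod.ext (hιi this.1) (hιi this.2)
    have hse : ∑ q ∈ (Finset.univ.filter (fun q : Fin (2 * h + 1) × Fin (2 * h + 1) =>
        q.1 ≠ q.2)).image (fun q => (ι q.1, ι q.2)), A x y q.1 q.2 =
        ∑ q ∈ Finset.univ.filter (fun q : Fin (2 * h + 1) × Fin (2 * h + 1) => q.1 ≠ q.2),
          A x y (ι q.1) (ι q.2) := Finset.sum_image (fun q _ q' _ hq => hinj hq)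
    rw [← hse]
    apply Finset.sum_le_sum_of_subset
    intro q hq
    rw [Finset.mem_image] at hq
    obtain ⟨p, hp, rfl⟩ := hq
    simp only [Finset.mem_filter, Finset.mem_univ, true_and] at hp ⊢
    exact fun hc => hp (hιi hc)
  -- the pair inequality
  have hW : ∀ x y, x ≠ y →
      ∑ b, ∑ k, (av (ρ x) b k + av (ρ y) b k) * (gv (ρ x) b k + gv (ρ y) b k) ≤
        4 * (S x y : ℝ) := by
    intro x y hxy
    obtain ⟨X, Y, c, c', hX, hY, hN⟩ := hpair x y hxy
    have h1 := dual (α := fun b => α x (ι b)) (α' := fun b => α y (ι b))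
      (X := fun b => X (ι b)) (Y := fun b => Y (ι b)) (c := c) (c' := c')
      (N := fun b k => A x y (ι b) (ι k) + A x y (ι k) (ι b)) (ρ := ρ x) (ρ' := ρ y)
      (s := fun b k => gv (ρ x) b k + gv (ρ y) b k)
      (hβ x) (hβ y) (fun b => hX (ι b)) (fun b => hY (ι b))
      (by
        intro b b' hbb
        have := hN (ι b) (ι b') (fun hc => hbb (hιi hc))
        simpa [A] using this)
      (hρ x) (hρ y)
      (by intro b k; rw [gv_anti (ρ x) b k, gv_anti (ρ y) b k]; ring)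
      (by intro b; rw [Finset.sum_add_distrib, gv_row, gv_row, add_zero])
      (by
        intro b k
        calc |gv (ρ x) b k + gv (ρ y) b k| ≤ |gv (ρ x) b k| + |gv (ρ y) b k| := abs_add_le _ _
          _ ≤ 1 / 2 + 1 / 2 := add_le_add (abs_gcl _) (abs_gcl _)
          _ = 1 := by norm_num)
    have h2 : ∑ b, ∑ k ∈ Finset.univ.filter (fun k => b ≠ k),
        (A x y (ι b) (ι k) + A x y (ι k) (ι b)) ≤ 2 * S x y := by
      have h3 : ∑ b, ∑ k ∈ Finset.univ.filter (fun k => b ≠ k), A x y (ι k) (ι b) ≤ S x y := by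
        have h4 := hsub y x
        rw [hSsymm y x] at h4
        refine le_trans (le_of_eq ?_) h4
        apply Finset.sum_congr rfl
        intro b _
        apply Finset.sum_congr rfl
        intro k _
        exact hAsymm x y _ _
      calc ∑ b, ∑ k ∈ Finset.univ.filter (fun k => b ≠ k),
          (A x y (ι b) (ι k) + A x y (ι k) (ι b))
          = ∑ b, ∑ k ∈ Finset.univ.filter (fun k => b ≠ k), A x y (ι b) (ι k) +
            ∑ b, ∑ k ∈ Finset.univ.filter (fun k => b ≠ k), A x y (ι k) (ι b) := by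
            rw [← Finset.sum_add_distrib]
            apply Finset.sum_congr rfl
            intro b _
            rw [← Finset.sum_add_distrib]
        _ ≤ S x y + S x y := add_le_add (hsub x y) h3
        _ = 2 * S x y := by ring
    have h3 : (∑ b, ∑ k ∈ Finset.univ.filter (fun k => b ≠ k),
        ((A x y (ι b) (ι k) + A x y (ι k) (ι b) : ℕ) : ℝ)) ≤ 2 * (S x y : ℝ) := by
      exact_mod_cast h2
    linarith
  -- the sum over all pairs
  have hS : 2 * ∑ p ∈ Finset.univ.filter (fun p : Fin m × Fin m => p.1 < p.2), S p.1 p.2 =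
      ∑ p ∈ Finset.univ.filter (fun p : Fin m × Fin m => p.1 ≠ p.2), S p.1 p.2 := by
    have h1 : Finset.univ.filter (fun p : Fin m × Fin m => p.1 ≠ p.2) =
        Finset.univ.filter (fun p : Fin m × Fin m => p.1 < p.2) ∪
        Finset.univ.filter (fun p : Fin m × Fin m => p.2 < p.1) := by
      ext p
      simp only [Finset.mem_filter, Finset.mem_univ, true_and, Finset.mem_union]
      exact lt_or_lt_iff_ne.symm
    rw [h1, Finset.sum_union]
    · have h2 : ∑ p ∈ Finset.univ.filter (fun p : Fin m × Fin m => p.2 < p.1), S p.1 p.2 =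
          ∑ p ∈ Finset.univ.filter (fun p : Fin m × Fin m => p.1 < p.2), S p.1 p.2 := by
        refine Finset.sum_bij' (fun q _ => (q.2, q.1)) (fun q _ => (q.2, q.1))
          ?_ ?_ ?_ ?_ ?_
        · intro q hq; simpa using hq
        · intro q hq; simpa using hq
        · intro q _; rfl
        · intro q _; rfl
        · intro q _; exact hSsymm q.1 q.2
      rw [h2]
      ring
    · rw [Finset.disjoint_left]
      intro p hp hp'
      simp only [Finset.mem_filter, Finset.mem_univ, true_and] at hp hp'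
      exact absurd (hp.trans hp') (lt_irrefl _)
  have hc : ∑ p ∈ Finset.univ.filter (fun p : Fin m × Fin m => p.1 < p.2), S p.1 p.2 ≤
      D.crossings := sum_pairs_le D
  have hc2 : (∑ p ∈ Finset.univ.filter (fun p : Fin m × Fin m => p.1 ≠ p.2), (S p.1 p.2 : ℝ)) ≤
      2 * (D.crossings : ℝ) := by
    have : ∑ p ∈ Finset.univ.filter (fun p : Fin m × Fin m => p.1 ≠ p.2), S p.1 p.2 ≤
        2 * D.crossings := by
      rw [← hS]
      exact Nat.mul_le_mul_left 2 hc
    exact_mod_cast this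
  have htot := total_ge ρ
  set W : Fin m → Fin m → ℝ := fun x y =>
    ∑ b, ∑ k, (av (ρ x) b k + av (ρ y) b k) * (gv (ρ x) b k + gv (ρ y) b k) with hWd
  have hsplit : ∑ x, ∑ y, W x y = ∑ x, W x x +
      ∑ p ∈ Finset.univ.filter (fun p : Fin m × Fin m => p.1 ≠ p.2), W p.1 p.2 := by
    rw [← Fintype.sum_prod_type (f := fun p : Fin m × Fin m => W p.1 p.2),
      ← Finset.sum_filter_add_sum_filter_not Finset.univ (fun p : Fin m × Fin m => p.1 = p.2)]
    congr 1
    symm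
    refine Finset.sum_bij' (fun x _ => (x, x)) (fun p _ => p.1) ?_ ?_ ?_ ?_ ?_
    · intro x _; simp
    · intro p _; simp
    · intro x _; rfl
    · intro p hp
      simp only [Finset.mem_filter, Finset.mem_univ, true_and] at hp
      exact Prod.ext rfl hp
    · intro x _; rfl
  have hdiag : ∑ x, W x x ≤ 4 * m * (h : ℝ) ^ 2 := by
    calc ∑ x, W x x ≤ ∑ _x : Fin m, 4 * (h : ℝ) ^ 2 :=
          Finset.sum_le_sum fun x _ => diag_le h (ρ x)
      _ = 4 * m * (h : ℝ) ^ 2 := by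
          rw [Finset.sum_const, Finset.card_univ, Fintype.card_fin, nsmul_eq_mul]
          ring
  have hoff : ∑ p ∈ Finset.univ.filter (fun p : Fin m × Fin m => p.1 ≠ p.2), W p.1 p.2 ≤
      4 * (2 * (D.crossings : ℝ)) := by
    calc ∑ p ∈ Finset.univ.filter (fun p : Fin m × Fin m => p.1 ≠ p.2), W p.1 p.2
        ≤ ∑ p ∈ Finset.univ.filter (fun p : Fin m × Fin m => p.1 ≠ p.2), 4 * (S p.1 p.2 : ℝ) := by
          apply Finset.sum_le_sum
          intro p hp
          exact hW p.1 p.2 (by simpa using hp)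
      _ = 4 * ∑ p ∈ Finset.univ.filter (fun p : Fin m × Fin m => p.1 ≠ p.2),
          (S p.1 p.2 : ℝ) := by rw [Finset.mul_sum]
      _ ≤ 4 * (2 * (D.crossings : ℝ)) := by linarith
  linarith

/-- The lower bound for all drawings. -/
theorem bound {m n : ℕ} (D : Drawing (K m n)) {h : ℕ} (hn : 2 * h + 1 ≤ n) :
    (m : ℝ) ^ 2 * (5429 / 2880 * (h : ℝ) ^ 2 - h - 5) - 4 * m * (h : ℝ) ^ 2 ≤
      8 * (D.crossings : ℝ) := by
  obtain ⟨D', hU, hc⟩ := Drawing.uncross D
  have h1 := uncrossed_bound D' hU hn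
  have h2 : (D'.crossings : ℝ) ≤ D.crossings := by exact_mod_cast hc
  linarith

theorem half_mul_le (m : ℕ) : ((m / 2 : ℕ) : ℝ) * (((m - 1) / 2 : ℕ) : ℝ) ≤ (m : ℝ) ^ 2 / 4 := by
  have h1 : ((m / 2 : ℕ) : ℝ) ≤ m / 2 := Nat.cast_div_le
  have h2 : (((m - 1) / 2 : ℕ) : ℝ) ≤ m / 2 := by
    refine le_trans ?_ h1
    exact_mod_cast Nat.div_le_div_right (Nat.sub_le m 1)
  calc ((m / 2 : ℕ) : ℝ) * (((m - 1) / 2 : ℕ) : ℝ) ≤ (m / 2) * (m / 2) :=
        mul_le_mul h1 h2 (Nat.cast_nonneg _) (by positivity)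
    _ = (m : ℝ) ^ 2 / 4 := by ring

/-- The asymptotic lower bound. -/
theorem asymptotic (ε : ℝ) (hε : 0 < ε) : ∃ N : ℕ, ∀ m n : ℕ, N ≤ m → N ≤ n →
    ∀ D : Drawing (K m n), (5429 / 5760 - ε) * (zar m n : ℝ) ≤ D.crossings := by
  refine ⟨⌈16 / ε⌉₊ + 4, ?_⟩
  intro m n hm hn D
  rcases le_or_gt (5429 / 5760 - ε) 0 with hneg | hpos
  · have h1 : (5429 / 5760 - ε) * (zar m n : ℝ) ≤ 0 :=
      mul_nonpos_of_nonpos_of_nonneg hneg (Nat.cast_nonneg _)
    exact h1.trans (Nat.cast_nonneg _)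
  obtain ⟨h, hh⟩ : ∃ h : ℕ, h = (n - 1) / 2 := ⟨_, rfl⟩
  have hb := bound D (h := h) (by omega)
  have hceil := Nat.le_ceil (16 / ε)
  have hmr : 16 / ε ≤ m := by
    have : ((⌈16 / ε⌉₊ + 4 : ℕ) : ℝ) ≤ m := by exact_mod_cast hm
    push_cast at this
    linarith
  have hnr : 16 / ε + 4 ≤ n := by
    have : ((⌈16 / ε⌉₊ + 4 : ℕ) : ℝ) ≤ n := by exact_mod_cast hn
    push_cast at this
    linarith
  have hhr : (n : ℝ) ≤ 2 * h + 2 := by
    have : n ≤ 2 * h + 2 := by omega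
    exact_mod_cast this
  have hεm : 16 ≤ ε * m := by
    rw [div_le_iff₀ hε] at hmr
    linarith
  have hεh : 8 ≤ ε * h := by
    have : 8 / ε ≤ h := by
      have : 16 / ε = 2 * (8 / ε) := by ring
      linarith
    rw [div_le_iff₀ hε] at this
    linarith
  have hh1 : (1 : ℝ) ≤ h := by
    have : 1 ≤ h := by omega
    exact_mod_cast this
  have hm0 : (0 : ℝ) ≤ m := Nat.cast_nonneg m
  have hz : (zar m n : ℝ) ≤ (m : ℝ) ^ 2 / 4 * (h * (h + 1)) := by
    have h1 := half_mul_le m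
    have h2 : ((n / 2 : ℕ) : ℝ) ≤ h + 1 := by
      have : n / 2 ≤ h + 1 := by omega
      exact_mod_cast this
    unfold zar
    push_cast
    rw [← hh]
    apply mul_le_mul h1 _ (by positivity) (by positivity)
    nlinarith
  have e1 : (m : ℝ) * h ^ 2 ≤ ε * (m ^ 2 * h ^ 2) / 16 := by
    have : 16 * ((m : ℝ) * h ^ 2) ≤ ε * m * (m * h ^ 2) :=
      mul_le_mul_of_nonneg_right hεm (by positivity)
    linarith
  have e2 : (m : ℝ) ^ 2 * h ≤ ε * (m ^ 2 * h ^ 2) / 8 := by
    have : 8 * ((m : ℝ) ^ 2 * h) ≤ ε * h * (m ^ 2 * h) :=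
      mul_le_mul_of_nonneg_right hεh (by positivity)
    linarith
  have e3 : (m : ℝ) ^ 2 ≤ m ^ 2 * h := by
    have : (m : ℝ) ^ 2 * 1 ≤ m ^ 2 * h := mul_le_mul_of_nonneg_left hh1 (by positivity)
    linarith
  have e4 : 0 ≤ ε * ((m : ℝ) ^ 2 * h) := by positivity
  have e5 : 0 ≤ ε * ((m : ℝ) ^ 2 * h ^ 2) := by positivity
  have e6 : (5429 / 5760 - ε) * (zar m n : ℝ) ≤
      (5429 / 5760 - ε) * ((m : ℝ) ^ 2 / 4 * (h * (h + 1))) :=
    mul_le_mul_of_nonneg_left hz hpos.le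
  linarith

end Vale.Agent.P040.Gen
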