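import Vale.Agent.P040.Gen.Lift

/-!
# Joining two half paths
-/

namespace Vale.Agent.P040.Gen

open Set Complex

/-- The last time a path is in a disc. -/
theorem last_exit {γ : ℝ → ℂ} {x : ℂ} {r : ℝ} (hr : 0 < r) (hγ : ContinuousOn γ (Icc 0 1))
    (h0 : γ 0 = x) (h1 : r < dist (γ 1) x) :
    ∃ t0 ∈ Ioo (0 : ℝ) 1, dist (γ t0) x = r ∧ ∀ t ∈ Ioc t0 1, r < dist (γ t) x := by
  have hd : ContinuousOn (fun t => dist (γ t) x) (Icc 0 1) :=
    (continuous_id.dist continuous_const).comp_continuousOn hγ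
  have hcl : IsClosed (Icc (0 : ℝ) 1 ∩ (fun t => dist (γ t) x) ⁻¹' Iic r) :=
    hd.preimage_isClosed_of_isClosed isClosed_Icc isClosed_Iic
  have hcomp : IsCompact (Icc (0 : ℝ) 1 ∩ (fun t => dist (γ t) x) ⁻¹' Iic r) :=
    isCompact_Icc.of_isClosed_subset hcl inter_subset_left
  obtain ⟨t0, ⟨ht0, ht0'⟩, hmax⟩ := hcomp.exists_isGreatest
    ⟨0, ⟨by simp, by simp [h0, hr.le]⟩⟩
  have ht0r : dist (γ t0) x ≤ r := ht0'
  have hgt : ∀ t ∈ Ioc t0 1, r < dist (γ t) x := by
    intro t ht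
    by_contra h
    push Not at h
    have := hmax ⟨⟨ht0.1.trans ht.1.le, ht.2⟩, h⟩
    linarith [ht.1]
  have ht1 : t0 < 1 := by
    rcases lt_or_eq_of_le ht0.2 with h | h
    · exact h
    · rw [h] at ht0r; linarith
  have heq : dist (γ t0) x = r := by
    by_contra hne
    have hlt : dist (γ t0) x < r := lt_of_le_of_ne ht0r hne
    have hcont := hd.mono (Icc_subset_Icc ht0.1 le_rfl)
    obtain ⟨t, ht, ht'⟩ := intermediate_value_Icc ht1.le hcont ⟨hlt.le, h1.le⟩
    have ht' : dist (γ t) x = r := ht'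
    rcases lt_or_eq_of_le ht.1 with h | h
    · have := hgt t ⟨h, ht.2⟩
      linarith
    · rw [← h] at ht'
      exact hne ht'
  refine ⟨t0, ⟨?_, ht1⟩, heq, hgt⟩
  rcases lt_or_eq_of_le ht0.1 with h | h
  · exact h
  · rw [← h, h0, dist_self] at heq
    exact absurd heq hr.ne

/-- A path from `x` to `z` which begins with a radius of the disc of radius `r` at `x` and then
stays outside this disc and in the set `A`. -/
structure Half (x : ℂ) (r : ℝ) (e z : ℂ) (A : Set ℂ) (h : ℝ → ℂ) : Prop where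
  cont : ContinuousOn h (Icc 0 1)
  rad : ∀ s ∈ Icc (0 : ℝ) (1 / 2), h s = x + (2 * s : ℝ) * (e - x)
  mem : ∀ s ∈ Icc (1 / 2 : ℝ) 1, h s ∈ A
  far : ∀ s ∈ Icc (1 / 2 : ℝ) 1, r ≤ dist (h s) x
  inj : InjOn h (Icc (1 / 2) 1)
  fin : h 1 = z
  he : dist e x = r
  heA : e ∈ A
  pos : 0 < r

theorem exists_half {γ : ℝ → ℂ} {x z : ℂ} {r : ℝ} {A : Set ℂ} (hr : 0 < r)
    (hγ : ContinuousOn γ (Icc 0 1)) (hinj : InjOn γ (Icc 0 1)) (h0 : γ 0 = x) (h1 : γ 1 = z)
    (hz : r < dist z x) (hA : ∀ s ∈ Icc (0 : ℝ) 1, γ s ∈ A) : ∃ e h, Half x r e z A h := by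
  obtain ⟨t0, ht0, hd, hgt⟩ := last_exit hr hγ h0 (by rw [h1]; exact hz)
  have hmem : ∀ s ∈ Icc (1 / 2 : ℝ) 1, t0 + (2 * s - 1) * (1 - t0) ∈ Icc t0 1 := by
    intro s hs
    have h3 : 0 ≤ (2 * s - 1) * (1 - t0) := mul_nonneg (by linarith [hs.1]) (by linarith [ht0.2])
    have h4 : (2 * s - 1) * (1 - t0) ≤ 1 * (1 - t0) :=
      mul_le_mul_of_nonneg_right (by linarith [hs.2]) (by linarith [ht0.2])
    exact ⟨by linarith, by linarith⟩
  have hmem1 : ∀ s ∈ Icc (1 / 2 : ℝ) 1, t0 + (2 * s - 1) * (1 - t0) ∈ Icc (0 : ℝ) 1 := by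
    intro s hs
    have := hmem s hs
    exact ⟨ht0.1.le.trans this.1, this.2⟩
  let h : ℝ → ℂ := fun s => if s ≤ 1 / 2 then x + (2 * s : ℝ) * (γ t0 - x) else
    γ (t0 + (2 * s - 1) * (1 - t0))
  have hl : ∀ s ∈ Icc (0 : ℝ) (1 / 2), h s = x + (2 * s : ℝ) * (γ t0 - x) := by
    intro s hs
    simp only [h]
    rw [if_pos hs.2]
  have hr' : ∀ s ∈ Icc (1 / 2 : ℝ) 1, h s = γ (t0 + (2 * s - 1) * (1 - t0)) := by
    intro s hs
    rcases lt_or_eq_of_le hs.1 with h3 | h3
    · simp only [h]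
      rw [if_neg (by linarith)]
    · rw [← h3]
      simp only [h]
      rw [if_pos le_rfl]
      norm_num
  have hc1 : ContinuousOn h (Icc 0 (1 / 2)) := by
    refine ContinuousOn.congr ?_ hl
    fun_prop
  have hc2 : ContinuousOn h (Icc (1 / 2) 1) := by
    refine ContinuousOn.congr ?_ hr'
    exact hγ.comp (by fun_prop) hmem1
  refine ⟨γ t0, h, ⟨?_, hl, ?_, ?_, ?_, ?_, hd, hA t0 ⟨ht0.1.le, ht0.2.le⟩, hr⟩⟩
  · have := hc1.union_of_isClosed hc2 isClosed_Icc isClosed_Icc
    rwa [Icc_union_Icc_eq_Icc (by norm_num) (by norm_num)] at this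
  · intro s hs
    rw [hr' s hs]
    exact hA _ (hmem1 s hs)
  · intro s hs
    rw [hr' s hs]
    have h3 := hmem s hs
    rcases lt_or_eq_of_le h3.1 with h4 | h4
    · exact (hgt _ ⟨h4, h3.2⟩).le
    · rw [← h4, hd]
  · intro s hs t ht hst
    rw [hr' s hs, hr' t ht] at hst
    have h3 := hinj (hmem1 s hs) (hmem1 t ht) hst
    have h4 : (1 - t0) ≠ 0 := by linarith [ht0.2]
    have h5 : (2 * s - 1) = (2 * t - 1) := mul_right_cancel₀ h4 (by linarith)
    linarith
  · rw [hr' 1 (by norm_num), ← h1]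
    congr 1
    ring

/-- The join of a half path with the reverse of another one. -/
noncomputable def join (h h' : ℝ → ℂ) : ℝ → ℂ := fun s => if s ≤ 1 / 2 then h (2 * s) else h' (2 - 2 * s)

section

variable {x y : ℂ} {r : ℝ} {e e' z : ℂ} {A A' : Set ℂ} {h h' : ℝ → ℂ}

theorem join_left (s : ℝ) (hs : s ≤ 1 / 2) : join h h' s = h (2 * s) := by
  simp only [join]; rw [if_pos hs]

theorem join_right (hh : Half x r e z A h) (hh' : Half y r e' z A' h') (s : ℝ) (hs : 1 / 2 ≤ s) :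
    join h h' s = h' (2 - 2 * s) := by
  rcases lt_or_eq_of_le hs with h3 | h3
  · simp only [join]; rw [if_neg (by linarith)]
  · rw [← h3, join_left _ le_rfl]
    norm_num
    rw [hh.fin, hh'.fin]

theorem Half.ne_center (hh : Half x r e z A h) {s : ℝ} (hs : s ∈ Ioc (0 : ℝ) 1) : h s ≠ x := by
  have hr := hh.pos
  intro heq
  rcases le_total s (1 / 2) with h3 | h3
  · rw [hh.rad s ⟨hs.1.le, h3⟩] at heq
    have h4 : ((2 * s : ℝ) : ℂ) * (e - x) = 0 := by linear_combination heq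
    rcases mul_eq_zero.1 h4 with h5 | h5
    · have : (2 * s : ℝ) = 0 := by exact_mod_cast h5
      linarith [hs.1]
    · have := hh.he
      rw [sub_eq_zero.1 h5, dist_self] at this
      linarith
  · have := hh.far s ⟨h3, hs.2⟩
    rw [heq, dist_self] at this
    linarith

theorem Half.dist_rad (hh : Half x r e z A h) {s : ℝ} (hs : s ∈ Icc (0 : ℝ) (1 / 2)) :
    dist (h s) x = 2 * s * r := by
  rw [hh.rad s hs, dist_eq_norm, add_sub_cancel_left, norm_mul, ← dist_eq_norm, hh.he]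
  rw [norm_real, Real.norm_eq_abs, abs_of_nonneg (by linarith [hs.1])]

/-- The join is a path which is straight near its ends. -/
theorem join_good (hh : Half x r e z A h) (hh' : Half y r e' z A' h') (hx : x ∉ A') (hy : y ∉ A)
    (hxy : 2 * r < dist x y) : Good x y (4 * (e - x)) (4 * (e' - y)) (1 / 4) (join h h') := by
  have hr := hh.pos
  have hcl : ContinuousOn (join h h') (Icc 0 (1 / 2)) := by
    apply ContinuousOn.congr (f := fun s => h (2 * s))
    · apply hh.cont.comp (by fun_prop)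
      intro s hs
      exact ⟨by linarith [hs.1], by linarith [hs.2]⟩
    · intro s hs
      exact join_left s hs.2
  have hcr : ContinuousOn (join h h') (Icc (1 / 2) 1) := by
    apply ContinuousOn.congr (f := fun s => h' (2 - 2 * s))
    · apply hh'.cont.comp (by fun_prop)
      intro s hs
      exact ⟨by linarith [hs.2], by linarith [hs.1]⟩
    · intro s hs
      exact join_right hh hh' s hs.1
  have hexy : ∀ c d : ℂ, dist d c = r → d ≠ c := by
    rintro c d h3 rfl
    rw [dist_self] at h3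
    linarith
  refine ⟨?_, by norm_num, by norm_num, ?_, ?_, ?_, ?_, ?_, ?_, ?_⟩
  · have := hcl.union_of_isClosed hcr isClosed_Icc isClosed_Icc
    rwa [Icc_union_Icc_eq_Icc (by norm_num) (by norm_num)] at this
  · intro s hs
    rw [join_left s (by linarith [hs.2]), hh.rad _ ⟨by linarith [hs.1], by linarith [hs.2]⟩]
    push_cast; ring
  · intro s hs
    rw [join_right hh hh' s (by linarith [hs.1]),
      hh'.rad _ ⟨by linarith [hs.2], by linarith [hs.1]⟩]
    push_cast; ring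
  · intro s hs heq
    rcases le_total s (1 / 2) with h3 | h3
    · rw [join_left s h3] at heq
      exact hh.ne_center ⟨by linarith [hs.1], by linarith⟩ heq
    · rw [join_right hh hh' s h3] at heq
      rcases le_total (2 - 2 * s) (1 / 2) with h4 | h4
      · have h5 := hh'.dist_rad (s := 2 - 2 * s) ⟨by linarith [hs.2], h4⟩
        rw [heq] at h5
        have h6 : 2 * (2 - 2 * s) * r ≤ 1 * r :=
          mul_le_mul_of_nonneg_right (by linarith) hr.le
        linarith
      · apply hx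
        rw [← heq]
        exact hh'.mem _ ⟨h4, by linarith⟩
  · intro s hs heq
    rcases le_total (1 / 2) s with h3 | h3
    · rw [join_right hh hh' s h3] at heq
      exact hh'.ne_center ⟨by linarith [hs.2], by linarith⟩ heq
    · rw [join_left s h3] at heq
      rcases le_total (2 * s) (1 / 2) with h4 | h4
      · have h5 := hh.dist_rad (s := 2 * s) ⟨by linarith [hs.1], h4⟩
        rw [heq, dist_comm] at h5
        have h6 : 2 * (2 * s) * r ≤ 1 * r :=
          mul_le_mul_of_nonneg_right (by linarith) hr.le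
        linarith
      · apply hy
        rw [← heq]
        exact hh.mem _ ⟨h4, by linarith⟩
  · exact mul_ne_zero (by norm_num) (sub_ne_zero.2 (hexy _ _ hh.he))
  · exact mul_ne_zero (by norm_num) (sub_ne_zero.2 (hexy _ _ hh'.he))
  · intro h3
    rw [h3, dist_self] at hxy
    linarith

theorem join_cases (hh : Half x r e z A h) (hh' : Half y r e' z A' h') {s : ℝ}
    (hs : s ∈ Ioo (0 : ℝ) 1) :
    (s < 1 / 4 ∧ join h h' s = x + (4 * s : ℝ) * (e - x) ∧ dist (join h h' s) x < r) ∨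
    (1 / 4 ≤ s ∧ s ≤ 1 / 2 ∧ join h h' s = h (2 * s) ∧ join h h' s ∈ A ∧
      r ≤ dist (join h h' s) x) ∨
    (1 / 2 < s ∧ s ≤ 3 / 4 ∧ join h h' s = h' (2 - 2 * s) ∧ join h h' s ∈ A' ∧
      r ≤ dist (join h h' s) y) ∨
    (3 / 4 < s ∧ join h h' s = y + (4 * (1 - s) : ℝ) * (e' - y) ∧ dist (join h h' s) y < r) := by
  have hr := hh.pos
  rcases lt_or_ge s (1 / 4) with h1 | h1
  · left
    refine ⟨h1, ?_, ?_⟩
    · rw [join_left s (by linarith), hh.rad _ ⟨by linarith [hs.1], by linarith⟩]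
      push_cast; ring
    · rw [join_left s (by linarith), hh.dist_rad ⟨by linarith [hs.1], by linarith⟩]
      calc 2 * (2 * s) * r < 1 * r := mul_lt_mul_of_pos_right (by linarith) hr
        _ = r := one_mul r
  rcases le_or_gt s (1 / 2) with h2 | h2
  · right; left
    have h3 : 2 * s ∈ Icc (1 / 2 : ℝ) 1 := ⟨by linarith, by linarith⟩
    refine ⟨h1, h2, join_left s h2, ?_, ?_⟩
    · rw [join_left s h2]; exact hh.mem _ h3
    · rw [join_left s h2]; exact hh.far _ h3
  rcases le_or_gt s (3 / 4) with h3 | h3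
  · right; right; left
    have h4 : 2 - 2 * s ∈ Icc (1 / 2 : ℝ) 1 := ⟨by linarith, by linarith⟩
    refine ⟨h2, h3, join_right hh hh' s h2.le, ?_, ?_⟩
    · rw [join_right hh hh' s h2.le]; exact hh'.mem _ h4
    · rw [join_right hh hh' s h2.le]; exact hh'.far _ h4
  · right; right; right
    refine ⟨h3, ?_, ?_⟩
    · rw [join_right hh hh' s h2.le, hh'.rad _ ⟨by linarith [hs.2], by linarith⟩]
      push_cast; ring
    · rw [join_right hh hh' s h2.le, hh'.dist_rad ⟨by linarith [hs.2], by linarith⟩]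
      calc 2 * (2 - 2 * s) * r < 1 * r := mul_lt_mul_of_pos_right (by linarith) hr
        _ = r := one_mul r

end

/-- Where two joins meet. -/
theorem join_meet {x y : ℂ} {r : ℝ} {e e' z d d' w : ℂ} {A A' B B' : Set ℂ} {h h' g g' : ℝ → ℂ}
    (hh : Half x r e z A h) (hh' : Half y r e' z A' h') (hg : Half x r d w B g)
    (hg' : Half y r d' w B' g') (hxy : 2 * r < dist x y)
    (hA : ∀ p ∈ A, r < dist p y) (hA' : ∀ p ∈ A', r < dist p x)
    (hB : ∀ p ∈ B, r < dist p y) (hB' : ∀ p ∈ B', r < dist p x)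
    (hAB : ∀ p ∈ A, p ∈ B → p = x) (hAB' : ∀ p ∈ A', p ∈ B' → p = y)
    {s t : ℝ} (hs : s ∈ Ioo (0 : ℝ) 1) (ht : t ∈ Ioo (0 : ℝ) 1)
    (hst : join h h' s = join g g' t) :
    (1 / 4 ≤ s ∧ s ≤ 1 / 2 ∧ join h h' s = h (2 * s) ∧ join h h' s ∈ A ∧
      1 / 2 < t ∧ t ≤ 3 / 4 ∧ join g g' t = g' (2 - 2 * t) ∧ join g g' t ∈ B') ∨
    (1 / 2 < s ∧ s ≤ 3 / 4 ∧ join h h' s = h' (2 - 2 * s) ∧ join h h' s ∈ A' ∧
      1 / 4 ≤ t ∧ t ≤ 1 / 2 ∧ join g g' t = g (2 * t) ∧ join g g' t ∈ B) := by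
  have hr := hh.pos
  have hball : ∀ p, dist p x < r → dist p y < r → False := by
    intro p h1 h2
    have h3 := dist_triangle x p y
    rw [dist_comm x p] at h3
    linarith
  have hed : e ≠ d := by
    intro h1
    have h2 := hAB e hh.heA (h1 ▸ hg.heA)
    have h3 := hh.he
    rw [h2, dist_self] at h3
    linarith
  have hed' : e' ≠ d' := by
    intro h1
    have h2 := hAB' e' hh'.heA (h1 ▸ hg'.heA)
    have h3 := hh'.he
    rw [h2, dist_self] at h3
    linarith
  have hrad : ∀ (c : ℂ) (a b : ℂ) (σ τ : ℝ), 0 < σ → 0 < τ → dist a c = r → dist b c = r →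
      c + (4 * σ : ℝ) * (a - c) = c + (4 * τ : ℝ) * (b - c) → a = b := by
    intro c a b σ τ hσ hτ ha hb heq
    have h1 : ((4 * σ : ℝ) : ℂ) * (a - c) = (4 * τ : ℝ) * (b - c) := by linear_combination heq
    have h2 := congrArg norm h1
    rw [norm_mul, norm_mul, ← dist_eq_norm, ← dist_eq_norm, ha, hb, norm_real, norm_real,
      Real.norm_eq_abs, Real.norm_eq_abs, abs_of_pos (by linarith), abs_of_pos (by linarith)] at h2
    have h3 : 4 * σ = 4 * τ := mul_right_cancel₀ hr.ne' h2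
    rw [h3] at h1
    have h4 : ((4 * τ : ℝ) : ℂ) ≠ 0 := by
      have : (0 : ℝ) < 4 * τ := by linarith
      exact_mod_cast this.ne'
    have h5 := mul_left_cancel₀ h4 h1
    linear_combination h5
  rcases join_cases hh hh' hs with ⟨a1, a2, a3⟩ | ⟨a1, a2, a3, a4, a5⟩ | ⟨a1, a2, a3, a4, a5⟩ |
      ⟨a1, a2, a3⟩ <;>
    rcases join_cases hg hg' ht with ⟨b1, b2, b3⟩ | ⟨b1, b2, b3, b4, b5⟩ | ⟨b1, b2, b3, b4, b5⟩ |
      ⟨b1, b2, b3⟩
  · exfalso
    rw [a2, b2] at hst
    exact hed (hrad x e d s t hs.1 ht.1 hh.he hg.he hst)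
  · exfalso
    rw [hst] at a3
    linarith
  · exfalso
    rw [hst] at a3
    have := hB' _ b4
    linarith
  · exfalso
    rw [hst] at a3
    exact hball _ a3 b3
  · exfalso
    rw [← hst] at b3
    linarith
  · exfalso
    rw [← hst] at b4
    have := hAB _ a4 b4
    rw [this, dist_self] at a5
    linarith
  · left
    exact ⟨a1, a2, a3, a4, b1, b2, b3, b4⟩
  · exfalso
    rw [← hst] at b3
    have := hA _ a4
    linarith
  · exfalso
    rw [← hst] at b3
    have := hA' _ a4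
    linarith
  · right
    exact ⟨a1, a2, a3, a4, b1, b2, b3, b4⟩
  · exfalso
    rw [← hst] at b4
    have := hAB' _ a4 b4
    rw [this, dist_self] at a5
    linarith
  · exfalso
    rw [← hst] at b3
    linarith
  · exfalso
    rw [hst] at a3
    exact hball _ b3 a3
  · exfalso
    rw [hst] at a3
    have := hB _ b4
    linarith
  · exfalso
    rw [hst] at a3
    linarith
  · exfalso
    rw [a2, b2] at hst
    exact hed' (hrad y e' d' (1 - s) (1 - t) (by linarith [hs.2]) (by linarith [ht.2]) hh'.he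
      hg'.he hst)

end Vale.Agent.P040.Gen
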