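import Vale.Agent.P040.Gen.Strip

/-!
# Lifts of paths from one point to another, and the number of their meeting points
-/

namespace Vale.Agent.P040.Gen

open Set Complex

/-- A path without zeros has a continuous logarithm. -/
theorem exists_log {F : ℝ → ℂ} (hF : ContinuousOn F (Icc 0 1)) (h0 : ∀ s ∈ Icc (0 : ℝ) 1, F s ≠ 0) :
    ∃ ℓ : ℝ → ℂ, ContinuousOn ℓ (Icc 0 1) ∧ ∀ s ∈ Icc (0 : ℝ) 1, exp (ℓ s) = F s := by
  let c : ℝ → ℝ := fun t => (projIcc (0 : ℝ) 1 zero_le_one t : ℝ)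
  have hc : Continuous c := continuous_subtype_val.comp continuous_projIcc
  have hcm : ∀ t, c t ∈ Icc (0 : ℝ) 1 := fun t => (projIcc (0 : ℝ) 1 zero_le_one t).2
  have hceq : ∀ t ∈ Icc (0 : ℝ) 1, c t = t := by
    intro t ht
    simp only [c]
    rw [projIcc_of_mem zero_le_one ht]
  have hF' : Continuous (fun t => F (c t)) := hF.comp_continuous hc hcm
  have hsc : IsSimplyConnected (univ : Set ℝ) := by
    have := (convex_univ : Convex ℝ (univ : Set ℝ)).contractibleSpace univ_nonempty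
    unfold IsSimplyConnected
    infer_instance
  obtain ⟨L, hL, hLe⟩ := exists_continuousOn_eqOn_exp_comp hsc isOpen_univ hF'.continuousOn
    (by rintro ⟨p, -, hp⟩; exact h0 _ (hcm p) hp)
  refine ⟨L, hL.mono (subset_univ _), ?_⟩
  intro s hs
  have := hLe (mem_univ s)
  simp only [Function.comp_apply, hceq s hs] at this
  exact this

/-- A path from `x` to `y` which is straight near its ends. -/
structure Good (x y u v : ℂ) (δ : ℝ) (f : ℝ → ℂ) : Prop where
  cont : ContinuousOn f (Icc 0 1)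
  pos : 0 < δ
  lt : δ < 1 / 2
  near0 : ∀ s ∈ Icc 0 δ, f s = x + s * u
  near1 : ∀ s ∈ Icc (1 - δ) 1, f s = y + (1 - s) * v
  ne0 : ∀ s ∈ Ioc (0 : ℝ) 1, f s ≠ x
  ne1 : ∀ s ∈ Ico (0 : ℝ) 1, f s ≠ y
  hu : u ≠ 0
  hv : v ≠ 0
  hxy : x ≠ y

/-- Division by the parameter near the initial point. -/
theorem continuousOn_quot {f : ℝ → ℂ} {u : ℂ} {δ : ℝ} (hf : ContinuousOn f (Icc 0 1))
    (hδ : 0 < δ) (h0 : ∀ s ∈ Icc 0 δ, f s = s * u) :
    ContinuousOn (fun s : ℝ => if s ≤ δ then u else f s / s) (Icc 0 1) := by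
  intro s hs
  rcases lt_or_ge s δ with h | h
  · have : ContinuousWithinAt (fun _ : ℝ => u) (Icc 0 1) s := continuousWithinAt_const
    apply this.congr_of_eventuallyEq _ (by simp [h.le])
    filter_upwards [mem_nhdsWithin_of_mem_nhds (Iio_mem_nhds h)] with t ht
    rw [if_pos (le_of_lt ht)]
  · have hs0 : 0 < s := hδ.trans_le h
    have : ContinuousWithinAt (fun t : ℝ => f t / t) (Icc 0 1) s := by
      apply ContinuousWithinAt.div (hf s hs) continuous_ofReal.continuousWithinAt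
      exact_mod_cast hs0.ne'
    apply this.congr_of_eventuallyEq
    · filter_upwards [self_mem_nhdsWithin, mem_nhdsWithin_of_mem_nhds (Ioi_mem_nhds hs0)]
        with t ht ht'
      have ht' : 0 < t := ht'
      by_cases h3 : t ≤ δ
      · rw [if_pos h3, h0 t ⟨ht.1, h3⟩]
        have : (t : ℂ) ≠ 0 := by exact_mod_cast ht'.ne'
        field_simp
      · rw [if_neg h3]
    · by_cases h3 : s ≤ δ
      · simp only [h3, if_true]
        rw [h0 s ⟨hs.1, h3⟩]
        have : (s : ℂ) ≠ 0 := by exact_mod_cast hs0.ne'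
        field_simp
      · simp only [h3, if_false]

/-- The lift of a path from `x` to `y`. -/
theorem Good.exists_lift {x y u v : ℂ} {δ : ℝ} {f : ℝ → ℂ} (h : Good x y u v δ f) :
    ∃ ℓ : ℝ → ℂ, ContinuousOn ℓ (Icc 0 1) ∧
      (∀ s ∈ Ioo (0 : ℝ) 1, exp (ℓ s + (lo s : ℂ)) = (f s - x) / (f s - y)) ∧
      exp (ℓ 0) = u / (x - y) ∧ exp (ℓ 1) = (y - x) / v := by
  have hδ := h.pos
  have hδ' := h.lt
  -- the quotient at the beginning
  have p1 : ContinuousOn (fun s : ℝ => if s ≤ δ then u else (f s - x) / s) (Icc 0 1) := by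
    apply continuousOn_quot (f := fun s => f s - x) (h.cont.sub continuousOn_const) hδ
    intro s hs
    rw [h.near0 s hs]; ring
  have hm : MapsTo (fun t : ℝ => 1 - t) (Icc 0 1) (Icc 0 1) := by
    intro t ht
    exact ⟨by linarith [ht.2], by linarith [ht.1]⟩
  have q0 : ContinuousOn (fun s : ℝ => if s ≤ δ then v else (f (1 - s) - y) / s) (Icc 0 1) := by
    apply continuousOn_quot (f := fun s => f (1 - s) - y)
      ((h.cont.comp (by fun_prop) hm).sub continuousOn_const) hδ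
    intro s hs
    rw [h.near1 (1 - s) ⟨by linarith [hs.2], by linarith [hs.1]⟩]
    push_cast; ring
  have q1 : ContinuousOn (fun s : ℝ => if 1 - s ≤ δ then v else (f s - y) / (1 - s : ℝ))
      (Icc 0 1) := by
    have := q0.comp (f := fun t : ℝ => 1 - t) (by fun_prop) hm
    refine this.congr ?_
    intro s hs
    simp
  have p2 : ∀ s ∈ Icc (0 : ℝ) 1, (if s ≤ δ then u else (f s - x) / s) ≠ 0 := by
    intro s hs
    split_ifs with h1
    · exact h.hu
    · push Not at h1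
      have : 0 < s := hδ.trans h1
      apply div_ne_zero (sub_ne_zero.2 (h.ne0 s ⟨this, hs.2⟩))
      exact_mod_cast this.ne'
  have q2 : ∀ s ∈ Icc (0 : ℝ) 1, (if 1 - s ≤ δ then v else (f s - y) / (1 - s : ℝ)) ≠ 0 := by
    intro s hs
    split_ifs with h1
    · exact h.hv
    · push Not at h1
      have : 0 < 1 - s := hδ.trans h1
      apply div_ne_zero (sub_ne_zero.2 (h.ne1 s ⟨hs.1, by linarith⟩))
      exact_mod_cast this.ne'
  have p3 : ∀ s ∈ Ioc (0 : ℝ) 1, (if s ≤ δ then u else (f s - x) / s) = (f s - x) / s := by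
    intro s hs
    split_ifs with h1
    · rw [h.near0 s ⟨hs.1.le, h1⟩]
      have : (s : ℂ) ≠ 0 := by exact_mod_cast hs.1.ne'
      field_simp
      ring
    · rfl
  have q3 : ∀ s ∈ Ico (0 : ℝ) 1,
      (if 1 - s ≤ δ then v else (f s - y) / (1 - s : ℝ)) = (f s - y) / (1 - s : ℝ) := by
    intro s hs
    split_ifs with h1
    · rw [h.near1 s ⟨by linarith, hs.2.le⟩]
      have : ((1 - s : ℝ) : ℂ) ≠ 0 := by
        have : (0 : ℝ) < 1 - s := by linarith [hs.2]
        exact_mod_cast this.ne'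
      rw [eq_div_iff this]
      push_cast; ring
    · rfl
  obtain ⟨ℓ, h1, h2⟩ := exists_log (F := fun s : ℝ => (if s ≤ δ then u else (f s - x) / s) /
    (if 1 - s ≤ δ then v else (f s - y) / (1 - s : ℝ))) (p1.div q1 q2)
    (fun s hs => div_ne_zero (p2 s hs) (q2 s hs))
  refine ⟨ℓ, h1, ?_, ?_, ?_⟩
  · intro s hs
    have k0 : ((s : ℝ) : ℂ) ≠ 0 := by exact_mod_cast hs.1.ne'
    have k1 : ((1 - s : ℝ) : ℂ) ≠ 0 := by
      have : (0 : ℝ) < 1 - s := by linarith [hs.2]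
      exact_mod_cast this.ne'
    have k2 : f s - y ≠ 0 := sub_ne_zero.2 (h.ne1 s ⟨hs.1.le, hs.2⟩)
    rw [exp_add, h2 s ⟨hs.1.le, hs.2.le⟩, p3 s ⟨hs.1, hs.2.le⟩, q3 s ⟨hs.1.le, hs.2⟩,
      ← ofReal_exp, exp_lo hs.1 hs.2, ofReal_div]
    field_simp
  · rw [h2 0 (by simp), if_pos hδ.le, q3 0 (by simp), h.near0 0 ⟨le_rfl, hδ.le⟩]
    simp
  · rw [h2 1 (by simp), p3 1 (by simp), if_pos (by linarith),
      h.near1 1 ⟨by linarith, le_rfl⟩]
    simp

/-- The number of meeting points is at least the change of the floor of the difference of the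
angles. -/
theorem floor_bound {x y u v u' v' : ℂ} {δ δ' : ℝ} {f g : ℝ → ℂ} (hf : Good x y u v δ f)
    (hg : Good x y u' v' δ' g) {ℓ μ : ℝ → ℂ} (hℓ : ContinuousOn ℓ (Icc 0 1))
    (hμ : ContinuousOn μ (Icc 0 1))
    (hℓf : ∀ s ∈ Ioo (0 : ℝ) 1, exp (ℓ s + (lo s : ℂ)) = (f s - x) / (f s - y))
    (hμg : ∀ s ∈ Ioo (0 : ℝ) 1, exp (μ s + (lo s : ℂ)) = (g s - x) / (g s - y))
    {X X' Y Y' : ℝ} (hX : (ℓ 0).im = 2 * Real.pi * X) (hX' : (μ 0).im = 2 * Real.pi * X')
    (hY : (ℓ 1).im = 2 * Real.pi * Y) (hY' : (μ 1).im = 2 * Real.pi * Y')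
    (hXX : ∀ k : ℤ, X' - X ≠ k) (hYY : ∀ k : ℤ, Y' - Y ≠ k) {C : Set ℂ} (hC : C.Finite)
    (hmeet : ∀ s ∈ Ioo (0 : ℝ) 1, ∀ t ∈ Ioo (0 : ℝ) 1, f s = g t → f s ∈ C)
    (hinj : ∀ s ∈ Ioo (0 : ℝ) 1, ∀ t ∈ Ioo (0 : ℝ) 1, ∀ s' ∈ Ioo (0 : ℝ) 1, ∀ t' ∈ Ioo (0 : ℝ) 1,
      f s = g t → f s' = g t' → f s = f s' → s = s' ∧ t = t') :
    |⌊X' - X⌋ - ⌊Y' - Y⌋| ≤ (C.ncard : ℤ) := by
  classical
  have hpi := Real.pi_pos
  have hxy : x ≠ y := hf.hxy
  -- equality of the lifts gives a meeting point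
  have key : ∀ k : ℤ, (X' - X < k ∧ k < Y' - Y) ∨ (Y' - Y < k ∧ k < X' - X) →
      ∃ s ∈ Ioo (0 : ℝ) 1, ∃ t ∈ Ioo (0 : ℝ) 1,
        ℓ s + (2 * Real.pi * k : ℝ) * I + (lo s : ℂ) = μ t + (lo t : ℂ) := by
    intro k hk
    have hc : ContinuousOn (fun s => ℓ s + (2 * Real.pi * k : ℝ) * I) (Icc 0 1) :=
      hℓ.add continuousOn_const
    have him : ∀ s, (ℓ s + (2 * Real.pi * k : ℝ) * I).im = (ℓ s).im + 2 * Real.pi * k := by
      intro s
      simp
    rcases hk with ⟨h1, h2⟩ | ⟨h1, h2⟩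
    · -- the lift of `f` is above at the beginning
      obtain ⟨s, hs, t, ht, hst⟩ := strip_cross hμ hc
        (by
          rw [him, hX, hX']
          have : 2 * Real.pi * X' < 2 * Real.pi * (X + k) :=
            mul_lt_mul_of_pos_left (by linarith) (by positivity)
          linarith)
        (by
          rw [him, hY, hY']
          have : 2 * Real.pi * (Y + k) < 2 * Real.pi * Y' :=
            mul_lt_mul_of_pos_left (by linarith) (by positivity)
          linarith)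
      exact ⟨t, ht, s, hs, hst.symm⟩
    · obtain ⟨s, hs, t, ht, hst⟩ := strip_cross hc hμ
        (by
          rw [him, hX, hX']
          have : 2 * Real.pi * (X + k) < 2 * Real.pi * X' :=
            mul_lt_mul_of_pos_left (by linarith) (by positivity)
          linarith)
        (by
          rw [him, hY, hY']
          have : 2 * Real.pi * Y' < 2 * Real.pi * (Y + k) :=
            mul_lt_mul_of_pos_left (by linarith) (by positivity)
          linarith)
      exact ⟨s, hs, t, ht, hst⟩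
  have hexp : ∀ k : ℤ, exp ((2 * Real.pi * k : ℝ) * I) = 1 := by
    intro k
    rw [exp_eq_one_iff]
    exact ⟨k, by push_cast; ring⟩
  have meet : ∀ k : ℤ, ∀ s ∈ Ioo (0 : ℝ) 1, ∀ t ∈ Ioo (0 : ℝ) 1,
      ℓ s + (2 * Real.pi * k : ℝ) * I + (lo s : ℂ) = μ t + (lo t : ℂ) → f s = g t := by
    intro k s hs t ht hst
    have h1 := congrArg exp hst
    rw [hμg t ht, show ℓ s + (2 * Real.pi * k : ℝ) * I + (lo s : ℂ) =
      (ℓ s + (lo s : ℂ)) + (2 * Real.pi * k : ℝ) * I by ring, exp_add, hexp, mul_one,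
      hℓf s hs] at h1
    have n1 : f s - y ≠ 0 := sub_ne_zero.2 (hf.ne1 s ⟨hs.1.le, hs.2⟩)
    have n2 : g t - y ≠ 0 := sub_ne_zero.2 (hg.ne1 t ⟨ht.1.le, ht.2⟩)
    rw [div_eq_div_iff n1 n2] at h1
    have h3 : (f s - g t) * (x - y) = 0 := by linear_combination h1
    rcases mul_eq_zero.1 h3 with h4 | h4
    · exact sub_eq_zero.1 h4
    · exact absurd (sub_eq_zero.1 h4) hxy
  -- the injection
  set S : Finset ℤ := Finset.Ioc (min ⌊X' - X⌋ ⌊Y' - Y⌋) (max ⌊X' - X⌋ ⌊Y' - Y⌋) with hS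
  have hSk : ∀ k ∈ S, (X' - X < k ∧ k < Y' - Y) ∨ (Y' - Y < k ∧ k < X' - X) := by
    intro k hk
    rw [hS, Finset.mem_Ioc] at hk
    rcases le_total ⌊X' - X⌋ ⌊Y' - Y⌋ with h | h
    · rw [min_eq_left h, max_eq_right h] at hk
      left
      refine ⟨Int.floor_lt.1 hk.1, lt_of_le_of_ne (Int.le_floor.1 hk.2) ?_⟩
      exact fun h3 => hYY k h3.symm
    · rw [min_eq_right h, max_eq_left h] at hk
      right
      refine ⟨Int.floor_lt.1 hk.1, lt_of_le_of_ne (Int.le_floor.1 hk.2) ?_⟩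
      exact fun h3 => hXX k h3.symm
  choose! s hs t ht hst using fun k => fun hk => key k (hSk k hk)
  have hcard : S.card ≤ C.ncard := by
    rw [Set.ncard_eq_toFinset_card C hC]
    apply Finset.card_le_card_of_injOn (fun k => f (s k))
    · intro k hk
      have := hmeet (s k) (hs k hk) (t k) (ht k hk) (meet k _ (hs k hk) _ (ht k hk) (hst k hk))
      simpa using this
    · intro k hk k' hk' h
      have hk : k ∈ S := hk
      have hk' : k' ∈ S := hk'
      have h := hinj (s k) (hs k hk) (t k) (ht k hk) (s k') (hs k' hk') (t k') (ht k' hk')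
        (meet k _ (hs k hk) _ (ht k hk) (hst k hk))
        (meet k' _ (hs k' hk') _ (ht k' hk') (hst k' hk')) h
      have e1 := hst k hk
      have e2 := hst k' hk'
      rw [← h.1, ← h.2, ← e1] at e2
      have e3 : ((2 * Real.pi * k' : ℝ) : ℂ) * I = ((2 * Real.pi * k : ℝ) : ℂ) * I := by
        linear_combination e2
      have e4 := congrArg Complex.im e3
      simp only [mul_im, ofReal_re, ofReal_im, I_re, I_im, mul_one, mul_zero, add_zero] at e4
      have e5 : (k' : ℝ) = k := by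
        have : (2 * Real.pi) ≠ 0 := by positivity
        exact mul_left_cancel₀ this e4
      exact_mod_cast e5.symm
  rw [hS, Int.card_Ioc] at hcard
  have h5 : |⌊X' - X⌋ - ⌊Y' - Y⌋| = max ⌊X' - X⌋ ⌊Y' - Y⌋ - min ⌊X' - X⌋ ⌊Y' - Y⌋ :=
    (max_sub_min_eq_abs' _ _).symm
  rw [h5]
  omega

end Vale.Agent.P040.Gen
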