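import Vale.Agent.P040.Gen.Join
import Vale.Agent.P040.DrawingLemmas
import Vale.Agent.P040.DrawingClasses

/-!
# The rotations of a drawing and the number of crossings of two stars
-/

namespace Vale.Agent.P040.Gen

open Set Complex Filter Topology

/-- The plane as the complex numbers. -/
noncomputable def toC : Plane ≃ₜ ℂ := Complex.equivRealProdCLM.symm.toHomeomorph

theorem im_of_exp_div {ℓ a b : ℂ} (ha : a ≠ 0) (hb : b ≠ 0) (h : exp ℓ = a / b) :
    ∃ k : ℤ, ℓ.im = arg a - arg b + 2 * Real.pi * k := by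
  have h1 : exp ℓ = exp (log a - log b) := by
    rw [h, exp_sub, exp_log ha, exp_log hb]
  obtain ⟨k, hk⟩ := exp_eq_exp_iff_exists_int.1 h1
  refine ⟨k, ?_⟩
  rw [hk]
  simp [log_im]
  ring

theorem eq_of_arg {u v : ℂ} {k : ℤ} (h1 : ‖u‖ = ‖v‖)
    (h2 : arg v / (2 * Real.pi) - arg u / (2 * Real.pi) = k) : u = v := by
  have hpi := Real.pi_pos
  have h3 : arg v = arg u + 2 * Real.pi * k := by
    rw [← sub_div, div_eq_iff (by positivity)] at h2
    linarith
  have h4 := Complex.norm_mul_exp_arg_mul_I v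
  have h5 := Complex.norm_mul_exp_arg_mul_I u
  rw [← h5, ← h4, h1, h3]
  congr 1
  rw [exp_eq_exp_iff_exists_int]
  refine ⟨-k, ?_⟩
  push_cast
  ring

section

variable {m n : ℕ} (D : Drawing (K m n))

/-- The edge from `x` to `b`, in the complex plane. -/
def edge (x : Fin m) (b : Fin n) : Set ℂ := toC '' D.arc s(Sum.inl x, Sum.inr b)

/-- The centre of a star. -/
noncomputable def ctr (x : Fin m) : ℂ := toC (D.pos (Sum.inl x))

theorem adj (x : Fin m) (b : Fin n) : (K m n).Adj (Sum.inl x) (Sum.inr b) := by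
  simp

theorem exists_path (x : Fin m) (b : Fin n) : ∃ γ : ℝ → ℂ, ContinuousOn γ (Icc 0 1) ∧
    InjOn γ (Icc 0 1) ∧ γ 0 = ctr D x ∧ γ 1 = toC (D.pos (Sum.inr b)) ∧
    γ '' Icc 0 1 = edge D x b := by
  obtain ⟨γ, h1, h2, h3, h4, h5⟩ := D.isArc _ _ (adj x b)
  refine ⟨fun t => toC (γ t), toC.continuous.comp_continuousOn h1, ?_, ?_, ?_, ?_⟩
  · intro s hs t ht hst
    exact h2 hs ht (toC.injective hst)
  · simp only [h3]; rfl
  · simp only [h4]
  · rw [edge, ← h5, image_image]

theorem ctr_notMem {x y : Fin m} (hxy : x ≠ y) (b : Fin n) : ctr D x ∉ edge D y b := by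
  rintro ⟨p, hp, hp'⟩
  have h1 : p = D.pos (Sum.inl x) := toC.injective hp'
  rw [h1] at hp
  have h2 := D.avoid _ (adj y b) _ hp
  rw [Sym2.mem_iff] at h2
  rcases h2 with h2 | h2
  · exact hxy (Sum.inl_injective h2)
  · exact absurd h2 (by simp)

theorem isCompact_edge (x : Fin m) (b : Fin n) : IsCompact (edge D x b) := by
  obtain ⟨γ, h1, -, -, -, h5⟩ := exists_path D x b
  rw [← h5]
  exact isCompact_Icc.image_of_continuousOn h1

/-- A small radius. -/
theorem exists_radius : ∃ r : ℝ, 0 < r ∧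
    (∀ x b, r < dist (toC (D.pos (Sum.inr b))) (ctr D x)) ∧
    (∀ x y, x ≠ y → 2 * r < dist (ctr D x) (ctr D y)) ∧
    (∀ x y, x ≠ y → ∀ b, ∀ p ∈ edge D x b, r < dist p (ctr D y)) := by
  have key : ∀ c : ℝ, 0 < c → ∀ᶠ r in 𝓝[>] (0 : ℝ), 2 * r < c := by
    intro c hc
    filter_upwards [mem_nhdsWithin_of_mem_nhds (Iio_mem_nhds (show (0 : ℝ) < c / 2 by linarith))]
      with r hr
    have : r < c / 2 := hr
    linarith
  have hpos : ∀ᶠ r in 𝓝[>] (0 : ℝ), 0 < r := by
    filter_upwards [self_mem_nhdsWithin] with r hr using hr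
  have h1 : ∀ᶠ r in 𝓝[>] (0 : ℝ), ∀ x b, r < dist (toC (D.pos (Sum.inr b))) (ctr D x) := by
    rw [eventually_all]
    intro x
    rw [eventually_all]
    intro b
    filter_upwards [hpos, key (dist (toC (D.pos (Sum.inr b))) (ctr D x)) (by
      rw [dist_pos, ctr]
      intro h
      exact absurd (D.pos_inj (toC.injective h)) (by simp))] with r h1 h2
    linarith
  have h2 : ∀ᶠ r in 𝓝[>] (0 : ℝ), ∀ x y, x ≠ y → 2 * r < dist (ctr D x) (ctr D y) := by
    rw [eventually_all]
    intro x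
    rw [eventually_all]
    intro y
    by_cases hxy : x = y
    · exact Eventually.of_forall fun r h => absurd hxy h
    · filter_upwards [key (dist (ctr D x) (ctr D y)) (by
        rw [dist_pos]
        intro h
        exact hxy (Sum.inl_injective (D.pos_inj (toC.injective h))))] with r hr _
      exact hr
  have h3 : ∀ᶠ r in 𝓝[>] (0 : ℝ), ∀ x y, x ≠ y → ∀ b, ∀ p ∈ edge D x b,
      r < dist p (ctr D y) := by
    rw [eventually_all]
    intro x
    rw [eventually_all]
    intro y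
    by_cases hxy : x = y
    · exact Eventually.of_forall fun r h => absurd hxy h
    · have : ∀ᶠ r in 𝓝[>] (0 : ℝ), ∀ b, ∀ p ∈ edge D x b, r < dist p (ctr D y) := by
        rw [eventually_all]
        intro b
        rcases (edge D x b).eq_empty_or_nonempty with h | h
        · exact Eventually.of_forall fun r p hp => by rw [h] at hp; exact absurd hp (by simp)
        · obtain ⟨q, hq, hmin⟩ := (isCompact_edge D x b).exists_isMinOn h
            (f := fun p => dist p (ctr D y)) (by fun_prop)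
          filter_upwards [hpos, key (dist q (ctr D y)) (by
            rw [dist_pos]
            intro h
            exact ctr_notMem D (Ne.symm hxy) b (h ▸ hq))] with r h1 h2 p hp
          have h3 : dist q (ctr D y) ≤ dist p (ctr D y) := hmin hp
          linarith
      filter_upwards [this] with r hr _
      exact hr
  obtain ⟨r, h4, h5, h6, h7⟩ := (hpos.and (h1.and (h2.and h3))).exists
  exact ⟨r, h4, h5, h6, h7⟩

theorem inter_notMem {x y : Fin m} {b b' : Fin n} (hxy : x ≠ y) (hbb : b ≠ b') {p : Plane}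
    (h1 : p ∈ D.arc s(Sum.inl x, Sum.inr b)) (h2 : p ∈ D.arc s(Sum.inl y, Sum.inr b')) :
    p ∉ Set.range D.pos := by
  rintro ⟨w, rfl⟩
  have h3 := D.avoid _ (adj x b) _ h1
  have h4 := D.avoid _ (adj y b') _ h2
  rw [Sym2.mem_iff] at h3 h4
  rcases h3 with rfl | rfl
  · rcases h4 with h | h
    · exact hxy (Sum.inl_injective h)
    · exact absurd h (by simp)
  · rcases h4 with h | h
    · exact absurd h (by simp)
    · exact hbb (Sum.inr_injective h)

theorem edge_ne {x y : Fin m} {b b' : Fin n} (hxy : x ≠ y) :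
    (s(Sum.inl x, Sum.inr b) : Sym2 (Fin m ⊕ Fin n)) ≠ s(Sum.inl y, Sum.inr b') := by
  intro h
  rw [Sym2.eq_iff] at h
  rcases h with ⟨h, -⟩ | ⟨h, -⟩
  · exact hxy (Sum.inl_injective h)
  · exact absurd h (by simp)

theorem finite_inter {x y : Fin m} {b b' : Fin n} (hxy : x ≠ y) (hbb : b ≠ b') :
    (D.arc s(Sum.inl x, Sum.inr b) ∩ D.arc s(Sum.inl y, Sum.inr b')).Finite := by
  apply (D.finite _ (adj x b) _ (adj y b') (edge_ne hxy)).subset
  rintro p ⟨h1, h2⟩
  have := inter_notMem D hxy hbb h1 h2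
  exact ⟨⟨h1, this⟩, ⟨h2, this⟩⟩

end

/-- The rotations of a drawing without crossings of adjacent edges: every pair of stars has
lifts of the directions whose change bounds the number of crossings. -/
theorem exists_rotation {m n : ℕ} (D : Drawing (K m n)) (hU : D.Uncrossed) :
    ∃ α : Fin m → Fin n → ℝ, (∀ x b b', b ≠ b' → ∀ k : ℤ, α x b' - α x b ≠ k) ∧
      ∀ x y, x ≠ y → ∃ (X Y : Fin n → ℝ) (c c' : ℝ), (∀ b, ∃ k : ℤ, X b = α x b + c + k) ∧
        (∀ b, ∃ k : ℤ, Y b = c' - α y b + k) ∧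
        ∀ b b', b ≠ b' → |⌊X b' - X b⌋ - ⌊Y b' - Y b⌋| ≤
          ((D.arc s(.inl x, .inr b) ∩ D.arc s(.inl y, .inr b')).ncard +
            (D.arc s(.inl x, .inr b') ∩ D.arc s(.inl y, .inr b)).ncard : ℤ) := by
  have hpi := Real.pi_pos
  obtain ⟨r, hr, r1, r2, r3⟩ := exists_radius D
  have hhalf : ∀ x b, ∃ e h, Half (ctr D x) r e (toC (D.pos (Sum.inr b))) (edge D x b) h := by
    intro x b
    obtain ⟨γ, h1, h2, h3, h4, h5⟩ := exists_path D x b
    exact exists_half hr h1 h2 h3 h4 (r1 x b) (fun s hs => h5 ▸ mem_image_of_mem γ hs)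
  choose e h hh using hhalf
  have hU' : ∀ x b b', b ≠ b' → ∀ p ∈ edge D x b, p ∈ edge D x b' → p = ctr D x := by
    rintro x b b' hbb p ⟨q, hq, rfl⟩ ⟨q', hq', heq⟩
    have : q' = q := toC.injective heq
    subst this
    rw [ctr, hU x b b' hbb q' hq hq']
  have hdist : ∀ x b b', b ≠ b' → ∀ k : ℤ,
      arg (e x b' - ctr D x) / (2 * Real.pi) - arg (e x b - ctr D x) / (2 * Real.pi) ≠ k := by
    intro x b b' hbb k hk
    have h1 := eq_of_arg (by
      rw [← dist_eq_norm, ← dist_eq_norm, (hh x b).he, (hh x b').he]) hk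
    have h2 : e x b = e x b' := sub_left_injective h1
    have h3 := hU' x b b' hbb _ (hh x b).heA (h2 ▸ (hh x b').heA)
    have h4 := (hh x b).he
    rw [h3, dist_self] at h4
    linarith
  refine ⟨fun x b => arg (e x b - ctr D x) / (2 * Real.pi), hdist, ?_⟩
  intro x y hxy
  have hgood : ∀ b, Good (ctr D x) (ctr D y) (4 * (e x b - ctr D x)) (4 * (e y b - ctr D y))
      (1 / 4) (join (h x b) (h y b)) := fun b =>
    join_good (hh x b) (hh y b) (ctr_notMem D hxy b) (ctr_notMem D hxy.symm b) (r2 x y hxy)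
  choose ℓ l1 l2 l3 l4 using fun b => (hgood b).exists_lift
  have hne : ∀ x b, e x b - ctr D x ≠ 0 := by
    intro x b h1
    have h2 := (hh x b).he
    rw [sub_eq_zero.1 h1, dist_self] at h2
    linarith
  have hxy' : ctr D x - ctr D y ≠ 0 := sub_ne_zero.2 fun hc =>
    hxy (Sum.inl_injective (D.pos_inj (toC.injective hc)))
  have hX : ∀ b, ∃ k : ℤ, (ℓ b 0).im / (2 * Real.pi) =
      arg (e x b - ctr D x) / (2 * Real.pi) + -(arg (ctr D x - ctr D y) / (2 * Real.pi)) + k := by
    intro b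
    obtain ⟨k, hk⟩ := im_of_exp_div (mul_ne_zero (by norm_num) (hne x b)) hxy' (l3 b)
    refine ⟨k, ?_⟩
    rw [hk, show (4 : ℂ) = ((4 : ℝ) : ℂ) by norm_num, arg_real_mul _ (by norm_num)]
    field_simp
    ring
  have hY : ∀ b, ∃ k : ℤ, (ℓ b 1).im / (2 * Real.pi) =
      arg (ctr D y - ctr D x) / (2 * Real.pi) - arg (e y b - ctr D y) / (2 * Real.pi) + k := by
    intro b
    obtain ⟨k, hk⟩ := im_of_exp_div (by
      rw [← neg_sub]; exact neg_ne_zero.2 hxy') (mul_ne_zero (by norm_num) (hne y b)) (l4 b)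
    refine ⟨k, ?_⟩
    rw [hk, show (4 : ℂ) = ((4 : ℝ) : ℂ) by norm_num, arg_real_mul _ (by norm_num)]
    field_simp
  refine ⟨fun b => (ℓ b 0).im / (2 * Real.pi), fun b => (ℓ b 1).im / (2 * Real.pi),
    -(arg (ctr D x - ctr D y) / (2 * Real.pi)), arg (ctr D y - ctr D x) / (2 * Real.pi), hX, hY, ?_⟩
  intro b b' hbb
  set C : Set ℂ := toC '' (D.arc s(.inl x, .inr b) ∩ D.arc s(.inl y, .inr b')) ∪
    toC '' (D.arc s(.inl x, .inr b') ∩ D.arc s(.inl y, .inr b)) with hC
  have hCfin : C.Finite :=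
    ((finite_inter D hxy hbb).image _).union ((finite_inter D hxy hbb.symm).image _)
  have hmem : ∀ {p : ℂ} {x y : Fin m} {b b' : Fin n}, p ∈ edge D x b → p ∈ edge D y b' →
      p ∈ toC '' (D.arc s(.inl x, .inr b) ∩ D.arc s(.inl y, .inr b')) := by
    rintro p x y b b' ⟨q, hq, rfl⟩ ⟨q', hq', heq⟩
    have : q' = q := toC.injective heq
    subst this
    exact ⟨q', ⟨hq, hq'⟩, rfl⟩
  have hmt : ∀ s ∈ Ioo (0 : ℝ) 1, ∀ t ∈ Ioo (0 : ℝ) 1,
      join (h x b) (h y b) s = join (h x b') (h y b') t → _ := fun s hs t ht hst =>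
    join_meet (hh x b) (hh y b) (hh x b') (hh y b') (r2 x y hxy) (r3 x y hxy b)
      (r3 y x hxy.symm b) (r3 x y hxy b') (r3 y x hxy.symm b') (hU' x b b' hbb) (hU' y b b' hbb)
      hs ht hst
  have key := floor_bound (hgood b) (hgood b') (l1 b) (l1 b') (l2 b) (l2 b')
    (X := (ℓ b 0).im / (2 * Real.pi)) (X' := (ℓ b' 0).im / (2 * Real.pi))
    (Y := (ℓ b 1).im / (2 * Real.pi)) (Y' := (ℓ b' 1).im / (2 * Real.pi))
    (by field_simp) (by field_simp) (by field_simp) (by field_simp)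
    (by
      intro k hk
      obtain ⟨k1, h1⟩ := hX b
      obtain ⟨k2, h2⟩ := hX b'
      rw [h1, h2] at hk
      apply hdist x b b' hbb (k - k2 + k1)
      push_cast
      linarith)
    (by
      intro k hk
      obtain ⟨k1, h1⟩ := hY b
      obtain ⟨k2, h2⟩ := hY b'
      rw [h1, h2] at hk
      apply hdist y b b' hbb (-(k - k2 + k1))
      push_cast
      linarith)
    hCfin
    (by
      intro s hs t ht hst
      rcases hmt s hs t ht hst with ⟨-, -, -, a4, -, -, -, a8⟩ | ⟨-, -, -, a4, -, -, -, a8⟩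
      · left
        exact hmem a4 (hst ▸ a8)
      · right
        exact hmem (hst ▸ a8) a4)
    (by
      intro s hs t ht s' hs' t' ht' hst hst' hss
      have hcontra : ∀ {p : ℂ}, p ∈ edge D x b → p ∈ edge D x b' → p ∈ edge D y b → False := by
        intro p h1 h2 h3
        have h4 := hU' x b b' hbb p h1 h2
        exact ctr_notMem D hxy b (h4 ▸ h3)
      rcases hmt s hs t ht hst with ⟨a1, a2, a3, a4, a5, a6, a7, a8⟩ |
          ⟨a1, a2, a3, a4, a5, a6, a7, a8⟩ <;>
        rcases hmt s' hs' t' ht' hst' with ⟨b1, b2, b3, b4, b5, b6, b7, b8⟩ |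
          ⟨b1, b2, b3, b4, b5, b6, b7, b8⟩
      · have e1 : 2 * s = 2 * s' := (hh x b).inj ⟨by linarith, by linarith⟩
          ⟨by linarith, by linarith⟩ (by rw [← a3, ← b3, hss])
        have e2 : 2 - 2 * t = 2 - 2 * t' := (hh y b').inj ⟨by linarith, by linarith⟩
          ⟨by linarith, by linarith⟩ (by rw [← a7, ← b7, ← hst, ← hst', hss])
        exact ⟨by linarith, by linarith⟩
      · exfalso
        rw [← hst'] at b8
        rw [← hss] at b8 b4
        exact hcontra a4 b8 b4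
      · exfalso
        rw [← hst] at a8
        rw [hss] at a8 a4
        exact hcontra b4 a8 a4
      · have e1 : 2 - 2 * s = 2 - 2 * s' := (hh y b).inj ⟨by linarith, by linarith⟩
          ⟨by linarith, by linarith⟩ (by rw [← a3, ← b3, hss])
        have e2 : 2 * t = 2 * t' := (hh x b').inj ⟨by linarith, by linarith⟩
          ⟨by linarith, by linarith⟩ (by rw [← a7, ← b7, ← hst, ← hst', hss])
        exact ⟨by linarith, by linarith⟩)
  refine key.trans ?_
  have h1 := Set.ncard_union_le (toC '' (D.arc s(.inl x, .inr b) ∩ D.arc s(.inl y, .inr b')))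
    (toC '' (D.arc s(.inl x, .inr b') ∩ D.arc s(.inl y, .inr b)))
  rw [Set.ncard_image_of_injective _ toC.injective,
    Set.ncard_image_of_injective _ toC.injective] at h1
  rw [hC]
  exact_mod_cast h1

/-- The crossings of pairs of stars are counted once. -/
theorem sum_pairs_le {m n : ℕ} (D : Drawing (K m n)) :
    ∑ p ∈ Finset.univ.filter (fun p : Fin m × Fin m => p.1 < p.2),
      ∑ q ∈ Finset.univ.filter (fun q : Fin n × Fin n => q.1 ≠ q.2),
        (D.arc s(.inl p.1, .inr q.1) ∩ D.arc s(.inl p.2, .inr q.2)).ncard ≤ D.crossings := by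
  classical
  set T := (Finset.univ.filter (fun p : Fin m × Fin m => p.1 < p.2)) ×ˢ
    (Finset.univ.filter (fun q : Fin n × Fin n => q.1 ≠ q.2)) with hT
  have hmemT : ∀ i ∈ T, i.1.1 < i.1.2 ∧ i.2.1 ≠ i.2.2 := by
    intro i hi
    simpa [T] using hi
  let F : (Fin m × Fin m) × (Fin n × Fin n) → Set Plane := fun i =>
    D.arc s(.inl i.1.1, .inr i.2.1) ∩ D.arc s(.inl i.1.2, .inr i.2.2)
  have hfin : ∀ i ∈ T, (F i).Finite := fun i hi =>
    finite_inter D (hmemT i hi).1.ne (hmemT i hi).2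
  let G : (Fin m × Fin m) × (Fin n × Fin n) → Finset Plane := fun i =>
    if hi : (F i).Finite then hi.toFinset else ∅
  have hG : ∀ i ∈ T, ∀ p, p ∈ G i ↔ p ∈ F i := by
    intro i hi p
    simp only [G]
    rw [dif_pos (hfin i hi)]
    simp
  have hGc : ∀ i ∈ T, (F i).ncard = (G i).card := by
    intro i hi
    rw [Set.ncard_eq_toFinset_card _ (hfin i hi)]
    simp only [G]
    rw [dif_pos (hfin i hi)]
  rw [← Finset.sum_product (f := fun i : (Fin m × Fin m) × (Fin n × Fin n) => (F i).ncard),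
    Finset.sum_congr rfl hGc, ← Finset.card_biUnion]
  · unfold Drawing.crossings
    rw [Set.ncard_eq_toFinset_card _ D.crossingSet_finite]
    apply Finset.card_le_card
    intro p hp
    rw [Finset.mem_biUnion] at hp
    obtain ⟨i, hi, hp⟩ := hp
    rw [hG i hi] at hp
    rw [Set.Finite.mem_toFinset]
    exact ⟨inter_notMem D (hmemT i hi).1.ne (hmemT i hi).2 hp.1 hp.2, _, adj _ _, _, adj _ _,
      edge_ne (hmemT i hi).1.ne, hp.1, hp.2⟩
  · intro i hi j hj hij
    show Disjoint (G i) (G j)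
    rw [Finset.disjoint_left]
    intro p hp hp'
    rw [hG i hi] at hp
    rw [hG j hj] at hp'
    apply hij
    have hne : ∀ {x y : Fin m} {b c : Fin n},
        (s(Sum.inl x, Sum.inr b) : Sym2 (Fin m ⊕ Fin n)) = s(Sum.inl y, Sum.inr c) →
        x = y ∧ b = c := by
      intro x y b c h
      simpa [Sym2.eq_iff] using h
    have hv := inter_notMem D (hmemT i hi).1.ne (hmemT i hi).2 hp.1 hp.2
    rcases D.pair_unique hv (adj i.1.1 i.2.1) (adj i.1.2 i.2.2) (adj j.1.1 j.2.1)
      (adj j.1.2 j.2.2) (edge_ne (hmemT i hi).1.ne) (edge_ne (hmemT j hj).1.ne) hp.1 hp.2 hp'.1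
      hp'.2 with ⟨h1, h2⟩ | ⟨h1, h2⟩
    · obtain ⟨a1, a2⟩ := hne h1
      obtain ⟨a3, a4⟩ := hne h2
      exact Prod.ext (Prod.ext a1 a3) (Prod.ext a2 a4)
    · obtain ⟨a1, a2⟩ := hne h1
      obtain ⟨a3, a4⟩ := hne h2
      have := (hmemT i hi).1
      rw [a1, a3] at this
      exact absurd (this.trans (hmemT j hj).1) (lt_irrefl _)

end Vale.Agent.P040.Gen
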