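import Vale.Agent.P040.Page.Turn

/-!
# Two paths in a strip which change order meet
-/

namespace Vale.Agent.P040.Gen

open Set Complex

/-- A continuous function which avoids two values stays between them. -/
theorem stay {θ : ℝ → ℝ} {a b p q : ℝ} (hθ : ContinuousOn θ (uIcc a b))
    (hp : ∀ s ∈ uIcc a b, θ s ≠ p) (hq : ∀ s ∈ uIcc a b, θ s ≠ q) (ha : p < θ a) (ha' : θ a < q) :
    p < θ b ∧ θ b < q := by
  have hiv := intermediate_value_uIcc hθ
  constructor
  · by_contra h
    push Not at h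
    obtain ⟨s, hs1, hs2⟩ := hiv (show p ∈ uIcc (θ a) (θ b) by
      rw [uIcc_of_ge (h.trans ha.le)]; exact ⟨h, ha.le⟩)
    exact hp s hs1 hs2
  · by_contra h
    push Not at h
    obtain ⟨s, hs1, hs2⟩ := hiv (show q ∈ uIcc (θ a) (θ b) by
      rw [uIcc_of_le (ha'.le.trans h)]; exact ⟨ha'.le, h⟩)
    exact hq s hs1 hs2

/-- The logarithm of the odds. -/
noncomputable def lo (t : ℝ) : ℝ := Real.log (t / (1 - t))

theorem lo_one_sub (t : ℝ) : lo (1 - t) = - lo t := by
  unfold lo
  rw [← Real.log_inv]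
  congr 1
  rw [inv_div]
  congr 1
  ring

theorem lo_mono {s t : ℝ} (hs : 0 < s) (hst : s ≤ t) (ht : t < 1) : lo s ≤ lo t := by
  unfold lo
  apply Real.log_le_log (div_pos hs (by linarith))
  apply div_le_div₀ (by linarith) hst (by linarith) (by linarith)

theorem exp_lo {t : ℝ} (h0 : 0 < t) (h1 : t < 1) : Real.exp (lo t) = t / (1 - t) :=
  Real.exp_log (div_pos h0 (by linarith))

theorem continuousOn_lo : ContinuousOn lo (Ioo 0 1) := by
  unfold lo
  apply ContinuousOn.log
  · apply ContinuousOn.div continuousOn_id (by fun_prop)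
    intro x hx
    linarith [hx.2]
  · intro x hx
    exact (div_pos hx.1 (by linarith [hx.2])).ne'

/-- There are points near zero with small logarithm of odds. -/
theorem exists_lo_lt (δ : ℝ) (hδ : 0 < δ) (hδ' : δ < 1) (B : ℝ) :
    ∃ ε, 0 < ε ∧ ε < δ ∧ lo ε + B < lo δ := by
  have hq : 0 < δ / (1 - δ) := div_pos hδ (by linarith)
  set c := δ / (1 - δ) * Real.exp (-B) / 2 with hc
  have hcp : 0 < c := by positivity
  refine ⟨min (δ / 2) (c / (1 + c)), ?_, ?_, ?_⟩
  · apply lt_min (by linarith) (by positivity)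
  · exact (min_le_left _ _).trans_lt (by linarith)
  · have h1 : lo (min (δ / 2) (c / (1 + c))) ≤ lo (c / (1 + c)) := by
      apply lo_mono (lt_min (by linarith) (by positivity)) (min_le_right _ _)
      rw [div_lt_one (by positivity)]; linarith
    have h2 : lo (c / (1 + c)) = Real.log c := by
      unfold lo
      congr 1
      have : (1 + c) ≠ 0 := by positivity
      field_simp
      ring
    have h3 : Real.log c < lo δ - B := by
      rw [hc, Real.log_div (by positivity) (by norm_num), Real.log_mul hq.ne' (Real.exp_pos _).ne',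
        Real.log_exp]
      have := Real.log_pos (show (1 : ℝ) < 2 by norm_num)
      unfold lo
      linarith
    linarith

theorem sin_of {r x y : ℝ} (hr : 0 < r) (h : x = r * y) : (0 < x ↔ 0 < y) ∧ (x < 0 ↔ y < 0) := by
  subst h
  refine ⟨mul_pos_iff_of_pos_left hr, ?_⟩
  constructor
  · intro h
    by_contra h2
    push Not at h2
    linarith [mul_nonneg hr.le h2]
  · intro h
    exact mul_neg_of_pos_of_neg hr h

/-- Two paths in a strip, coming from minus infinity and going to plus infinity, which change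
their order meet. -/
theorem strip_cross {ℓ μ : ℝ → ℂ} (hℓ : ContinuousOn ℓ (Icc 0 1)) (hμ : ContinuousOn μ (Icc 0 1))
    (h0 : (ℓ 0).im < (μ 0).im) (h1 : (μ 1).im < (ℓ 1).im) :
    ∃ s ∈ Ioo (0 : ℝ) 1, ∃ t ∈ Ioo (0 : ℝ) 1, ℓ s + (lo s : ℂ) = μ t + (lo t : ℂ) := by
  by_contra hne
  push Not at hne
  have m0 : (0 : ℝ) ∈ Icc (0 : ℝ) 1 := by simp
  have m1 : (1 : ℝ) ∈ Icc (0 : ℝ) 1 := by simp
  -- bounds for the real parts
  obtain ⟨B1, hB1⟩ := isCompact_Icc.exists_bound_of_continuousOn hℓ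
  obtain ⟨B2, hB2⟩ := isCompact_Icc.exists_bound_of_continuousOn hμ
  have hre : ∀ s ∈ Icc (0 : ℝ) 1, ∀ t ∈ Icc (0 : ℝ) 1, |(ℓ s).re - (μ t).re| ≤ B1 + B2 := by
    intro s hs t ht
    have h1 := (abs_re_le_norm (ℓ s)).trans (hB1 s hs)
    have h2 := (abs_re_le_norm (μ t)).trans (hB2 t ht)
    calc |(ℓ s).re - (μ t).re| ≤ |(ℓ s).re| + |(μ t).re| := abs_sub _ _
      _ ≤ B1 + B2 := add_le_add h1 h2
  -- the order near the ends
  obtain ⟨δ, hδ0, hδ1, hd0, hd1⟩ : ∃ δ : ℝ, 0 < δ ∧ δ < 1 / 2 ∧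
      (∀ s ∈ Icc (0 : ℝ) δ, ∀ t ∈ Icc (0 : ℝ) δ, (ℓ s).im < (μ t).im) ∧
      (∀ s ∈ Icc (1 - δ) 1, ∀ t ∈ Icc (1 - δ) 1, (μ t).im < (ℓ s).im) := by
    have hiℓ : ContinuousOn (fun s => (ℓ s).im) (Icc 0 1) := continuous_im.comp_continuousOn hℓ
    have hiμ : ContinuousOn (fun s => (μ s).im) (Icc 0 1) := continuous_im.comp_continuousOn hμ
    have e1 : ∀ᶠ s in nhdsWithin (0 : ℝ) (Icc 0 1), (ℓ s).im < ((ℓ 0).im + (μ 0).im) / 2 :=
      (hiℓ 0 m0).eventually_lt_const (by linarith)
    have e2 : ∀ᶠ s in nhdsWithin (0 : ℝ) (Icc 0 1), ((ℓ 0).im + (μ 0).im) / 2 < (μ s).im :=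
      (hiμ 0 m0).eventually_const_lt (by linarith)
    have e3 : ∀ᶠ s in nhdsWithin (1 : ℝ) (Icc 0 1), ((ℓ 1).im + (μ 1).im) / 2 < (ℓ s).im :=
      (hiℓ 1 m1).eventually_const_lt (by linarith)
    have e4 : ∀ᶠ s in nhdsWithin (1 : ℝ) (Icc 0 1), (μ s).im < ((ℓ 1).im + (μ 1).im) / 2 :=
      (hiμ 1 m1).eventually_lt_const (by linarith)
    obtain ⟨a, ha, ha'⟩ := Metric.mem_nhdsWithin_iff.1 (e1.and e2)
    obtain ⟨b, hb, hb'⟩ := Metric.mem_nhdsWithin_iff.1 (e3.and e4)
    refine ⟨min (min a b) 1 / 3, by positivity, ?_, ?_, ?_⟩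
    · have := min_le_right (min a b) 1
      linarith
    · intro s hs t ht
      have hm := min_le_left (min a b) 1
      have hm1 := min_le_right (min a b) 1
      have hma := min_le_left a b
      have hmp : 0 < min (min a b) 1 := by positivity
      have k1 := ha' ⟨show s ∈ Metric.ball 0 a by
        rw [Metric.mem_ball, Real.dist_eq, abs_lt]
        constructor <;> linarith [hs.1, hs.2], ⟨hs.1, by linarith [hs.2]⟩⟩
      have k2 := ha' ⟨show t ∈ Metric.ball 0 a by
        rw [Metric.mem_ball, Real.dist_eq, abs_lt]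
        constructor <;> linarith [ht.1, ht.2], ⟨ht.1, by linarith [ht.2]⟩⟩
      have k3 : (ℓ s).im < ((ℓ 0).im + (μ 0).im) / 2 := k1.1
      have k4 : ((ℓ 0).im + (μ 0).im) / 2 < (μ t).im := k2.2
      linarith
    · intro s hs t ht
      have hm := min_le_left (min a b) 1
      have hm1 := min_le_right (min a b) 1
      have hma := min_le_right a b
      have hmp : 0 < min (min a b) 1 := by positivity
      have k1 := hb' ⟨show s ∈ Metric.ball 1 b by
        rw [Metric.mem_ball, Real.dist_eq, abs_lt]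
        constructor <;> linarith [hs.1, hs.2], ⟨by linarith [hs.1], hs.2⟩⟩
      have k2 := hb' ⟨show t ∈ Metric.ball 1 b by
        rw [Metric.mem_ball, Real.dist_eq, abs_lt]
        constructor <;> linarith [ht.1, ht.2], ⟨by linarith [ht.1], ht.2⟩⟩
      have k3 : ((ℓ 1).im + (μ 1).im) / 2 < (ℓ s).im := k1.1
      have k4 : (μ t).im < ((ℓ 1).im + (μ 1).im) / 2 := k2.2
      linarith
  obtain ⟨ε, hε0, hεδ, hεl⟩ := exists_lo_lt δ hδ0 (by linarith) (B1 + B2)
  have hB0 : 0 ≤ B1 + B2 := (abs_nonneg _).trans (hre 0 m0 0 m0)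
  -- the rescaled paths
  let r : ℝ → ℝ := fun s => ε + (1 - 2 * ε) * s
  have hrc : Continuous r := by fun_prop
  have hr0 : r 0 = ε := by simp [r]
  have hr1 : r 1 = 1 - ε := by simp [r]; ring
  have hrI : ∀ s ∈ Icc (0 : ℝ) 1, r s ∈ Icc ε (1 - ε) := by
    intro s hs
    constructor
    · have : 0 ≤ (1 - 2 * ε) * s := mul_nonneg (by linarith) hs.1
      simp only [r]; linarith
    · have : (1 - 2 * ε) * s ≤ (1 - 2 * ε) * 1 := mul_le_mul_of_nonneg_left hs.2 (by linarith)
      simp only [r]; linarith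
  have hrI1 : ∀ s ∈ Icc (0 : ℝ) 1, r s ∈ Ioo (0 : ℝ) 1 := by
    intro s hs
    have := hrI s hs
    exact ⟨by linarith [this.1], by linarith [this.2]⟩
  have hrI2 : ∀ s ∈ Icc (0 : ℝ) 1, r s ∈ Icc (0 : ℝ) 1 := fun s hs => Ioo_subset_Icc_self (hrI1 s hs)
  have hαc : ContinuousOn (fun s => ℓ (r s) + (lo (r s) : ℂ)) (Icc 0 1) := by
    apply ContinuousOn.add (hℓ.comp hrc.continuousOn hrI2)
    exact continuous_ofReal.comp_continuousOn (continuousOn_lo.comp hrc.continuousOn hrI1)
  have hβc : ContinuousOn (fun s => μ (r s) + (lo (r s) : ℂ)) (Icc 0 1) := by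
    apply ContinuousOn.add (hμ.comp hrc.continuousOn hrI2)
    exact continuous_ofReal.comp_continuousOn (continuousOn_lo.comp hrc.continuousOn hrI1)
  obtain ⟨θ, hθc, hθ⟩ := Page.exists_angle hαc hβc (by
    intro s hs t ht
    exact hne _ (hrI1 s hs) _ (hrI1 t ht))
  -- signs
  have hcos : ∀ s ∈ Icc (0 : ℝ) 1, ∀ t ∈ Icc (0 : ℝ) 1,
      ((lo (r s) + (B1 + B2) < lo (r t)) → Real.cos (θ (s, t)) < 0) ∧
      ((lo (r t) + (B1 + B2) < lo (r s)) → 0 < Real.cos (θ (s, t))) := by
    intro s hs t ht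
    obtain ⟨ρ, hρ, e1, -⟩ := hθ s hs t ht
    simp only [sub_re, add_re, ofReal_re] at e1
    have h3 := abs_le.1 (hre _ (hrI2 s hs) _ (hrI2 t ht))
    constructor
    · intro h
      exact (sin_of hρ e1).2.1 (by linarith [h3.2])
    · intro h
      exact (sin_of hρ e1).1.1 (by linarith [h3.1])
  have hsin : ∀ s ∈ Icc (0 : ℝ) 1, ∀ t ∈ Icc (0 : ℝ) 1,
      ((ℓ (r s)).im < (μ (r t)).im → Real.sin (θ (s, t)) < 0) ∧
      ((μ (r t)).im < (ℓ (r s)).im → 0 < Real.sin (θ (s, t))) := by
    intro s hs t ht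
    obtain ⟨ρ, hρ, -, e1⟩ := hθ s hs t ht
    simp only [sub_im, add_im, ofReal_im, add_zero] at e1
    constructor
    · intro h
      exact (sin_of hρ e1).2.1 (by linarith)
    · intro h
      exact (sin_of hρ e1).1.1 (by linarith)
  have hloδ : lo (1 - δ) = - lo δ := lo_one_sub δ
  have hloε : lo (1 - ε) = - lo ε := lo_one_sub ε
  -- the sides
  have sA : ∀ t ∈ Icc (0 : ℝ) 1, Real.sin (θ (0, t)) < 0 ∨ Real.cos (θ (0, t)) < 0 := by
    intro t ht
    have hrt := hrI t ht
    rcases le_total (r t) δ with h | h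
    · left
      apply (hsin 0 m0 t ht).1
      rw [hr0]
      exact hd0 _ ⟨hε0.le, hεδ.le⟩ _ ⟨by linarith [hrt.1], h⟩
    · right
      apply (hcos 0 m0 t ht).1
      rw [hr0]
      have := lo_mono hδ0 h (hrI1 t ht).2
      linarith
  have sD : ∀ s ∈ Icc (0 : ℝ) 1, Real.sin (θ (s, 0)) < 0 ∨ 0 < Real.cos (θ (s, 0)) := by
    intro t ht
    have hrt := hrI t ht
    rcases le_total (r t) δ with h | h
    · left
      apply (hsin t ht 0 m0).1
      rw [hr0]
      exact hd0 _ ⟨by linarith [hrt.1], h⟩ _ ⟨hε0.le, hεδ.le⟩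
    · right
      apply (hcos t ht 0 m0).2
      rw [hr0]
      have := lo_mono hδ0 h (hrI1 t ht).2
      linarith
  have sB : ∀ s ∈ Icc (0 : ℝ) 1, 0 < Real.sin (θ (s, 1)) ∨ Real.cos (θ (s, 1)) < 0 := by
    intro t ht
    have hrt := hrI t ht
    rcases le_total (1 - δ) (r t) with h | h
    · left
      apply (hsin t ht 1 m1).2
      rw [hr1]
      exact hd1 _ ⟨h, by linarith [hrt.2]⟩ _ ⟨by linarith, by linarith⟩
    · right
      apply (hcos t ht 1 m1).1
      rw [hr1]
      have := lo_mono (hrI1 t ht).1 h (by linarith)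
      linarith
  have sC : ∀ t ∈ Icc (0 : ℝ) 1, 0 < Real.sin (θ (1, t)) ∨ 0 < Real.cos (θ (1, t)) := by
    intro t ht
    have hrt := hrI t ht
    rcases le_total (1 - δ) (r t) with h | h
    · left
      apply (hsin 1 m1 t ht).2
      rw [hr1]
      exact hd1 _ ⟨by linarith, by linarith⟩ _ ⟨h, by linarith [hrt.2]⟩
    · right
      apply (hcos 1 m1 t ht).2
      rw [hr1]
      have := lo_mono (hrI1 t ht).1 h (by linarith)
      linarith
  -- the corners
  have lo_lt : lo ε + (B1 + B2) < lo (1 - ε) := by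
    have h2 : lo δ ≤ 0 := by
      have := lo_mono hδ0 (show δ ≤ 1 - δ by linarith) (by linarith)
      linarith
    linarith
  have c00 : Real.sin (θ (0, 0)) < 0 := by
    apply (hsin 0 m0 0 m0).1
    rw [hr0]
    exact hd0 _ ⟨hε0.le, hεδ.le⟩ _ ⟨hε0.le, hεδ.le⟩
  have c11 : 0 < Real.sin (θ (1, 1)) := by
    apply (hsin 1 m1 1 m1).2
    rw [hr1]
    exact hd1 _ ⟨by linarith, by linarith⟩ _ ⟨by linarith, by linarith⟩
  have c01 : Real.cos (θ (0, 1)) < 0 := by
    apply (hcos 0 m0 1 m1).1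
    rw [hr0, hr1]
    exact lo_lt
  have c10 : 0 < Real.cos (θ (1, 0)) := by
    apply (hcos 1 m1 0 m0).2
    rw [hr0, hr1]
    exact lo_lt
  -- normalise
  have hpi := Real.pi_pos
  obtain ⟨c, hcn, hc1, hc2⟩ : ∃ c : ℝ, (∃ k : ℤ, c = k * (2 * Real.pi)) ∧
      Real.pi < θ (0, 0) - c ∧ θ (0, 0) - c < 2 * Real.pi := by
    set k := ⌊θ (0, 0) / (2 * Real.pi)⌋ with hk
    have k1 : (k : ℝ) * (2 * Real.pi) ≤ θ (0, 0) := by
      rw [← le_div_iff₀ (by positivity)]; exact Int.floor_le _
    have k2 : θ (0, 0) < (k + 1 : ℝ) * (2 * Real.pi) := by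
      rw [← div_lt_iff₀ (by positivity)]; exact Int.lt_floor_add_one _
    refine ⟨k * (2 * Real.pi), ⟨k, rfl⟩, ?_, by linarith⟩
    by_contra hcon
    push Not at hcon
    have : 0 ≤ Real.sin (θ (0, 0) - k * (2 * Real.pi)) :=
      Real.sin_nonneg_of_nonneg_of_le_pi (by linarith) hcon
    rw [Real.sin_sub_int_mul_two_pi] at this
    linarith
  obtain ⟨k, hk⟩ := hcn
  have hsc : ∀ x, Real.sin (x - c) = Real.sin x := by
    intro x; rw [hk, Real.sin_sub_int_mul_two_pi]
  have hcc : ∀ x, Real.cos (x - c) = Real.cos x := by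
    intro x; rw [hk, Real.cos_sub_int_mul_two_pi]
  have hu10 : uIcc (1 : ℝ) 0 = Icc 0 1 := by rw [uIcc_of_ge zero_le_one]
  have hu01 : uIcc (0 : ℝ) 1 = Icc 0 1 := by rw [uIcc_of_le zero_le_one]
  have s32 : Real.sin (3 * Real.pi / 2) = -1 := by
    rw [show 3 * Real.pi / 2 = Real.pi / 2 + Real.pi by ring, Real.sin_add_pi, Real.sin_pi_div_two]
  have c32 : Real.cos (3 * Real.pi / 2) = 0 := by
    rw [show 3 * Real.pi / 2 = Real.pi / 2 + Real.pi by ring, Real.cos_add_pi,
      Real.cos_pi_div_two, neg_zero]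
  have sm : Real.sin (-(Real.pi / 2)) = -1 := by rw [Real.sin_neg, Real.sin_pi_div_two]
  have cm : Real.cos (-(Real.pi / 2)) = 0 := by rw [Real.cos_neg, Real.cos_pi_div_two]
  -- side A
  have A := stay (θ := fun t => θ (0, t) - c) (a := 0) (b := 1) (p := Real.pi / 2)
    (q := 2 * Real.pi) (by fun_prop)
    (by
      intro s hs h
      rw [hu01] at hs
      have k1 := hsc (θ (0, s)); have k2 := hcc (θ (0, s))
      beta_reduce at h
      rw [h] at k1 k2
      rw [Real.sin_pi_div_two] at k1; rw [Real.cos_pi_div_two] at k2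
      rcases sA s hs with h3 | h3 <;> linarith)
    (by
      intro s hs h
      rw [hu01] at hs
      have k1 := hsc (θ (0, s)); have k2 := hcc (θ (0, s))
      beta_reduce at h
      rw [h] at k1 k2
      rw [Real.sin_two_pi] at k1; rw [Real.cos_two_pi] at k2
      rcases sA s hs with h3 | h3 <;> linarith)
    (by beta_reduce; linarith) (by beta_reduce; linarith)
  beta_reduce at A
  have A2 : θ (0, 1) - c < 3 * Real.pi / 2 := by
    by_contra h
    push Not at h
    have : 0 ≤ Real.cos (θ (0, 1) - c) := by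
      rw [← Real.cos_sub_two_pi]
      exact Real.cos_nonneg_of_neg_pi_div_two_le_of_le (by linarith) (by linarith [A.2])
    rw [hcc] at this
    linarith
  -- side B
  have B := stay (θ := fun s => θ (s, 1) - c) (a := 0) (b := 1) (p := 0)
    (q := 3 * Real.pi / 2) (by fun_prop)
    (by
      intro s hs h
      rw [hu01] at hs
      have k1 := hsc (θ (s, 1)); have k2 := hcc (θ (s, 1))
      beta_reduce at h
      rw [h] at k1 k2
      rw [Real.sin_zero] at k1; rw [Real.cos_zero] at k2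
      rcases sB s hs with h3 | h3 <;> linarith)
    (by
      intro s hs h
      rw [hu01] at hs
      have k1 := hsc (θ (s, 1)); have k2 := hcc (θ (s, 1))
      beta_reduce at h
      rw [h] at k1 k2
      rw [s32] at k1; rw [c32] at k2
      rcases sB s hs with h3 | h3 <;> linarith)
    (by beta_reduce; linarith [A.1]) (by beta_reduce; exact A2)
  beta_reduce at B
  have B2' : θ (1, 1) - c < Real.pi := by
    by_contra h
    push Not at h
    have : Real.sin (θ (1, 1) - c) ≤ 0 := by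
      rw [← Real.sin_sub_two_pi]
      exact Real.sin_nonpos_of_nonpos_of_neg_pi_le (by linarith [B.2]) (by linarith)
    rw [hsc] at this
    linarith
  -- side C
  have C := stay (θ := fun t => θ (1, t) - c) (a := 1) (b := 0) (p := -(Real.pi / 2))
    (q := Real.pi) (by fun_prop)
    (by
      intro s hs h
      rw [hu10] at hs
      have k1 := hsc (θ (1, s)); have k2 := hcc (θ (1, s))
      beta_reduce at h
      rw [h] at k1 k2
      rw [sm] at k1; rw [cm] at k2
      rcases sC s hs with h3 | h3 <;> linarith)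
    (by
      intro s hs h
      rw [hu10] at hs
      have k1 := hsc (θ (1, s)); have k2 := hcc (θ (1, s))
      beta_reduce at h
      rw [h] at k1 k2
      rw [Real.sin_pi] at k1; rw [Real.cos_pi] at k2
      rcases sC s hs with h3 | h3 <;> linarith)
    (by beta_reduce; linarith [B.1]) (by beta_reduce; exact B2')
  beta_reduce at C
  have C2 : θ (1, 0) - c < Real.pi / 2 := by
    by_contra h
    push Not at h
    have : Real.cos (θ (1, 0) - c) ≤ 0 :=
      Real.cos_nonpos_of_pi_div_two_le_of_le h (by linarith [C.2])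
    rw [hcc] at this
    linarith
  -- side D
  have D := stay (θ := fun s => θ (s, 0) - c) (a := 1) (b := 0) (p := -Real.pi)
    (q := Real.pi / 2) (by fun_prop)
    (by
      intro s hs h
      rw [hu10] at hs
      have k1 := hsc (θ (s, 0)); have k2 := hcc (θ (s, 0))
      beta_reduce at h
      rw [h] at k1 k2
      rw [Real.sin_neg, Real.sin_pi] at k1; rw [Real.cos_neg, Real.cos_pi] at k2
      rcases sD s hs with h3 | h3 <;> linarith)
    (by
      intro s hs h
      rw [hu10] at hs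
      have k1 := hsc (θ (s, 0)); have k2 := hcc (θ (s, 0))
      beta_reduce at h
      rw [h] at k1 k2
      rw [Real.sin_pi_div_two] at k1; rw [Real.cos_pi_div_two] at k2
      rcases sD s hs with h3 | h3 <;> linarith)
    (by beta_reduce; linarith [C.1]) (by beta_reduce; exact C2)
  beta_reduce at D
  linarith [D.2]

end Vale.Agent.P040.Gen
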