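import Vale.Agent.P040.Gen.UncLift

/-!
# The uncrossing surgery for two arcs with a common end
-/

namespace Vale.Agent.P040.Unc

open Set Filter Topology

/-- The outcome of the surgery at two arcs `S` (from `x` to `a`) and `T` (from `x` to `b`). -/
structure Surg (S T : Set Plane) (x a b : Plane) (O S' T' N : Set Plane) (p : Plane) : Prop where
  arcS : IsArc S' x a
  arcT : IsArc T' x b
  subN : N ⊆ O
  pS : p ∈ S
  pT : p ∈ T
  px : p ≠ x
  germS : ∀ y ∈ S', y ∉ N → (y ∈ S ∧ y ∈ T) ∨ Germ S' S y ∨ Germ S' T y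
  germT : ∀ y ∈ T', y ∉ N → (y ∈ S ∧ y ∈ T) ∨ Germ T' S y ∨ Germ T' T y
  inter : ∀ y ∈ S', y ∈ T' → y = x ∨ (y ≠ p ∧ Germ S' S y ∧ Germ T' T y)
  bS : b ∉ S'
  aT : a ∉ T'

section sub

variable {γ : ℝ → Plane} (hγ : ContinuousOn γ (Icc 0 1)) (hγi : InjOn γ (Icc 0 1))

include hγi

theorem mem_sub {s c d : ℝ} (hs : s ∈ Icc (0 : ℝ) 1) (hc : 0 ≤ c) (hd : d ≤ 1)
    (h : γ s ∈ γ '' Icc c d) : s ∈ Icc c d := by
  obtain ⟨t, ht, hts⟩ := h
  rwa [← hγi ⟨hc.trans ht.1, ht.2.trans hd⟩ hs hts]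

include hγ

theorem arc_sub {c d : ℝ} (hc : 0 ≤ c) (hcd : c < d) (hd : d ≤ 1) :
    IsArc (γ '' Icc c d) (γ c) (γ d) :=
  isArc_image hcd (hγ.mono (Icc_subset_Icc hc hd)) (hγi.mono (Icc_subset_Icc hc hd))

omit hγi in
theorem closed_sub {c d : ℝ} (hc : 0 ≤ c) (hd : d ≤ 1) : IsClosed (γ '' Icc c d) :=
  isClosed_image (hγ.mono (Icc_subset_Icc hc hd))

theorem germ_right {s c : ℝ} (hs : s ∈ Icc (0 : ℝ) 1) (hc : 0 ≤ c) (hcs : c < s) :
    Germ (γ '' Icc c 1) (γ '' Icc 0 1) (γ s) := by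
  have hc1 : c ≤ 1 := hcs.le.trans hs.2
  rw [← Icc_union_Icc_eq_Icc hc hc1, image_union]
  apply Germ.symm
  apply germ_union_right (closed_sub hγ le_rfl hc1)
  intro h
  exact absurd (mem_sub hγi hs le_rfl hc1 h).2 (not_le.2 hcs)

theorem germ_left {s c : ℝ} (hs : s ∈ Icc (0 : ℝ) 1) (hc : c ≤ 1) (hcs : s < c) :
    Germ (γ '' Icc 0 c) (γ '' Icc 0 1) (γ s) := by
  have hc0 : 0 ≤ c := hs.1.trans hcs.le
  rw [← Icc_union_Icc_eq_Icc hc0 hc, image_union]
  apply Germ.symm
  apply germ_union_left (closed_sub hγ hc0 le_rfl)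
  intro h
  exact absurd (mem_sub hγi hs hc0 le_rfl h).1 (not_le.2 hcs)

end sub

variable {γ δ : ℝ → Plane}

/-- The case in which the two switching points are different. -/
theorem surgery_ne (hγ : ContinuousOn γ (Icc 0 1)) (hγi : InjOn γ (Icc 0 1))
    (hδ : ContinuousOn δ (Icc 0 1)) (hδi : InjOn δ (Icc 0 1)) (h0 : δ 0 = γ 0)
    (ha : γ 1 ∉ δ '' Icc 0 1) (hb : δ 1 ∉ γ '' Icc 0 1) {sp tp sq tq : ℝ}
    (hsp : 0 < sp) (hspq : sp < sq) (hsq : sq < 1) (htq : 0 < tq) (htqp : tq < tp) (htp : tp < 1)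
    (hp : γ sp = δ tp) (hq : γ sq = δ tq)
    (P1 : ∀ s, 0 < s → s < sp → γ s ∉ δ '' Icc 0 1)
    (P2 : ∀ s, sq < s → s ≤ 1 → γ s ∉ δ '' Icc 0 tp) (O : Set Plane) :
    Surg (γ '' Icc 0 1) (δ '' Icc 0 1) (γ 0) (γ 1) (δ 1) O (δ '' Icc 0 tq ∪ γ '' Icc sq 1)
      (γ '' Icc 0 sp ∪ δ '' Icc tp 1) ∅ (γ sp) := by
  have subT : ∀ {c d : ℝ}, 0 ≤ c → d ≤ 1 → δ '' Icc c d ⊆ δ '' Icc 0 1 := fun hc hd =>
    image_mono (Icc_subset_Icc hc hd)
  have subS : ∀ {c d : ℝ}, 0 ≤ c → d ≤ 1 → γ '' Icc c d ⊆ γ '' Icc 0 1 := fun hc hd =>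
    image_mono (Icc_subset_Icc hc hd)
  have clS : ∀ {c d : ℝ}, 0 ≤ c → d ≤ 1 → IsClosed (γ '' Icc c d) := fun hc hd =>
    closed_sub hγ hc hd
  have clT : ∀ {c d : ℝ}, 0 ≤ c → d ≤ 1 → IsClosed (δ '' Icc c d) := fun hc hd =>
    closed_sub hδ hc hd
  have iS : ∀ s, 0 ≤ s → s ≤ 1 → ∀ s', 0 ≤ s' → s' ≤ 1 → γ s = γ s' → s = s' :=
    fun s h1 h2 s' h3 h4 h => hγi ⟨h1, h2⟩ ⟨h3, h4⟩ h
  have iT : ∀ s, 0 ≤ s → s ≤ 1 → ∀ s', 0 ≤ s' → s' ≤ 1 → δ s = δ s' → s = s' :=
    fun s h1 h2 s' h3 h4 h => hδi ⟨h1, h2⟩ ⟨h3, h4⟩ h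
  refine ⟨?_, ?_, empty_subset _, ⟨sp, ⟨by linarith, by linarith⟩, rfl⟩,
    ⟨tp, ⟨by linarith, by linarith⟩, hp.symm⟩, ?_, ?_, ?_, ?_, ?_, ?_⟩
  · -- the arc `S'`
    have e1 := arc_sub hδ hδi le_rfl htq (by linarith)
    have e2 := arc_sub hγ hγi (c := sq) (d := 1) (by linarith) hsq le_rfl
    rw [h0] at e1
    rw [hq] at e2
    apply e1.concat e2
    rintro y hy ⟨s, hs, rfl⟩
    rcases hs.1.eq_or_lt with h | h
    · rw [← h, hq]
    · exact absurd (image_mono (Icc_subset_Icc_right htqp.le) hy) (P2 s h hs.2)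
  · -- the arc `T'`
    have e1 := arc_sub hγ hγi le_rfl hsp (by linarith)
    have e2 := arc_sub hδ hδi (c := tp) (d := 1) (by linarith) htp le_rfl
    rw [hp] at e1
    apply e1.concat e2
    rintro y ⟨s, hs, rfl⟩ hy
    rcases hs.2.eq_or_lt with h | h
    · rw [h, hp]
    · rcases hs.1.eq_or_lt with h' | h'
      · exfalso
        rw [← h', ← h0] at hy
        have := mem_sub hδi (s := 0) (by simp) (by linarith) le_rfl hy
        linarith [this.1]
      · exact absurd (subT (by linarith) le_rfl hy) (P1 s h' h)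
  · intro h
    have := iS sp (by linarith) (by linarith) 0 le_rfl zero_le_one h
    linarith
  · -- germs of `S'`
    rintro y (⟨t, ht, rfl⟩ | ⟨s, hs, rfl⟩) -
    · by_cases hyS : δ t ∈ γ '' Icc 0 1
      · left
        exact ⟨hyS, subT le_rfl (by linarith) ⟨t, ht, rfl⟩⟩
      · right; right
        have hne : t < tq := by
          rcases ht.2.eq_or_lt with h | h
          · exact absurd (h ▸ hq ▸ ⟨sq, ⟨by linarith, by linarith⟩, rfl⟩) hyS
          · exact h
        refine (germ_union_left (clS (by linarith) le_rfl) ?_).trans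
          (germ_left hδ hδi ⟨ht.1, by linarith [ht.2]⟩ (by linarith) hne)
        intro h
        exact hyS (subS (by linarith) le_rfl h)
    · by_cases hyT : γ s ∈ δ '' Icc 0 1
      · left
        exact ⟨⟨s, ⟨by linarith [hs.1], hs.2⟩, rfl⟩, hyT⟩
      · right; left
        have hne : sq < s := by
          rcases hs.1.eq_or_lt with h | h
          · exact absurd (h ▸ hq ▸ ⟨tq, ⟨by linarith, by linarith⟩, rfl⟩) hyT
          · exact h
        refine (germ_union_right (clT le_rfl (by linarith)) ?_).trans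
          (germ_right hγ hγi ⟨by linarith [hs.1], hs.2⟩ (by linarith) hne)
        intro h
        exact hyT (subT le_rfl (by linarith) h)
  · -- germs of `T'`
    rintro y (⟨s, hs, rfl⟩ | ⟨t, ht, rfl⟩) -
    · by_cases hyT : γ s ∈ δ '' Icc 0 1
      · left
        exact ⟨⟨s, ⟨hs.1, by linarith [hs.2]⟩, rfl⟩, hyT⟩
      · right; left
        have hne : s < sp := by
          rcases hs.2.eq_or_lt with h | h
          · exact absurd (h ▸ hp ▸ ⟨tp, ⟨by linarith, by linarith⟩, rfl⟩) hyT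
          · exact h
        refine (germ_union_left (clT (by linarith) le_rfl) ?_).trans
          (germ_left hγ hγi ⟨hs.1, by linarith [hs.2]⟩ (by linarith) hne)
        intro h
        exact hyT (subT (by linarith) le_rfl h)
    · by_cases hyS : δ t ∈ γ '' Icc 0 1
      · left
        exact ⟨hyS, ⟨t, ⟨by linarith [ht.1], ht.2⟩, rfl⟩⟩
      · right; right
        have hne : tp < t := by
          rcases ht.1.eq_or_lt with h | h
          · exact absurd (h ▸ hp ▸ ⟨sp, ⟨by linarith, by linarith⟩, rfl⟩) hyS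
          · exact h
        refine (germ_union_right (clS le_rfl (by linarith)) ?_).trans
          (germ_right hδ hδi ⟨by linarith [ht.1], ht.2⟩ (by linarith) hne)
        intro h
        exact hyS (subS le_rfl (by linarith) h)
  · -- intersections
    rintro y (⟨t, ht, rfl⟩ | ⟨s, hs, rfl⟩) (⟨s', hs', he⟩ | ⟨t', ht', he⟩)
    · left
      rcases hs'.1.eq_or_lt with h | h
      · rw [← he, ← h]
      · rcases hs'.2.eq_or_lt with h' | h'
        · exfalso
          rw [h', hp] at he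
          have := iT tp (by linarith) (by linarith) t ht.1 (by linarith [ht.2]) he
          linarith [ht.2]
        · exact absurd (he ▸ ⟨t, ⟨ht.1, by linarith [ht.2]⟩, rfl⟩) (P1 s' h h')
    · exfalso
      have := iT t' (by linarith [ht'.1]) ht'.2 t ht.1 (by linarith [ht.2]) he
      linarith [ht.2, ht'.1]
    · exfalso
      have := iS s' hs'.1 (by linarith [hs'.2]) s (by linarith [hs.1]) hs.2 he
      linarith [hs.1, hs'.2]
    · right
      have h1 : sq < s := by
        rcases hs.1.eq_or_lt with h | h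
        · exfalso
          rw [← h, hq] at he
          have := iT t' (by linarith [ht'.1]) ht'.2 tq (by linarith) (by linarith) he
          linarith [ht'.1]
        · exact h
      have h2 : tp < t' := by
        rcases ht'.1.eq_or_lt with h | h
        · exfalso
          rw [← h, ← hp] at he
          have := iS sp (by linarith) (by linarith) s (by linarith) hs.2 he
          linarith
        · exact h
      refine ⟨?_, ?_, ?_⟩
      · intro h
        have := iS s (by linarith) hs.2 sp (by linarith) (by linarith) h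
        linarith
      · refine (germ_union_right (clT le_rfl (by linarith)) ?_).trans
          (germ_right hγ hγi ⟨by linarith [hs.1], hs.2⟩ (by linarith) h1)
        rw [← he]
        intro h
        have := mem_sub hδi (s := t') ⟨by linarith, ht'.2⟩ le_rfl (by linarith) h
        linarith [this.2]
      · rw [← he]
        refine (germ_union_right (clS le_rfl (by linarith)) ?_).trans
          (germ_right hδ hδi ⟨by linarith [ht'.1], ht'.2⟩ (by linarith) h2)
        rw [he]
        intro h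
        have := mem_sub hγi (s := s) ⟨by linarith, hs.2⟩ le_rfl (by linarith) h
        linarith [this.2]
  · rintro (h | h)
    · have := mem_sub hδi (s := 1) (by simp) le_rfl (by linarith) h
      linarith [this.2]
    · exact hb (subS (by linarith) le_rfl h)
  · rintro (h | h)
    · have := mem_sub hγi (s := 1) (by simp) le_rfl (by linarith) h
      linarith [this.2]
    · exact ha (subT (by linarith) le_rfl h)

end Vale.Agent.P040.Unc
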