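import Vale.Agent.P040.Gen.Surgery

/-!
# The uncrossing surgery for two arcs with a common end, second case
-/

namespace Vale.Agent.P040.Unc

open Set Filter Topology

variable {γ δ : ℝ → Plane}

/-- The case in which the two switching points coincide: the corners are replaced by chords of the
chart. -/
theorem surgery_eq (hγ : ContinuousOn γ (Icc 0 1)) (hγi : InjOn γ (Icc 0 1))
    (hδ : ContinuousOn δ (Icc 0 1)) (hδi : InjOn δ (Icc 0 1)) (h0 : δ 0 = γ 0)
    (ha : γ 1 ∉ δ '' Icc 0 1) (hb : δ 1 ∉ γ '' Icc 0 1) {sp tp : ℝ}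
    (hsp : 0 < sp) (hsp1 : sp < 1) (htp0 : 0 < tp) (htp : tp < 1)
    (hp : γ sp = δ tp)
    (P1 : ∀ s, 0 < s → s < sp → γ s ∉ δ '' Icc 0 1)
    (P2 : ∀ s, sp < s → s ≤ 1 → γ s ∉ δ '' Icc 0 tp) {O : Set Plane}
    {ε : ℝ} (hε : 0 < ε) {H : Plane → Plane} {h k : ℝ → ℝ}
    (hHc : ContinuousOn H (Metric.closedBall 0 ε)) (hHi : InjOn H (Metric.closedBall 0 ε))
    (hHO : H '' Metric.closedBall 0 ε ⊆ O) (hH0 : H (0, 0) = γ sp)
    (hHS : ∀ z ∈ Metric.closedBall (0 : Plane) ε, (H z ∈ γ '' Icc 0 1 ↔ z.2 = 0))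
    (hHT : ∀ z ∈ Metric.closedBall (0 : Plane) ε, (H z ∈ δ '' Icc 0 1 ↔ z.1 = 0))
    (hh : StrictMonoOn h (Icc (-ε) ε)) (hk : StrictMonoOn k (Icc (-ε) ε))
    (hhγ : ∀ u ∈ Icc (-ε) ε, h u ∈ Icc (0 : ℝ) 1 ∧ γ (h u) = H (u, 0))
    (hkδ : ∀ u ∈ Icc (-ε) ε, k u ∈ Icc (0 : ℝ) 1 ∧ δ (k u) = H (0, u))
    (hx : γ 0 ∉ O) (ha' : γ 1 ∉ O) (hb' : δ 1 ∉ O) :
    Surg (γ '' Icc 0 1) (δ '' Icc 0 1) (γ 0) (γ 1) (δ 1) O
      (δ '' Icc 0 (k (-ε)) ∪ (fun u => H (u, u - ε)) '' Icc 0 ε ∪ γ '' Icc (h ε) 1)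
      (γ '' Icc 0 (h (-ε)) ∪ (fun u => H (u - ε, u)) '' Icc 0 ε ∪ δ '' Icc (k ε) 1)
      (H '' Metric.closedBall 0 ε) (γ sp) := by
  have subT : ∀ {c d : ℝ}, 0 ≤ c → d ≤ 1 → δ '' Icc c d ⊆ δ '' Icc 0 1 := fun hc hd =>
    image_mono (Icc_subset_Icc hc hd)
  have subS : ∀ {c d : ℝ}, 0 ≤ c → d ≤ 1 → γ '' Icc c d ⊆ γ '' Icc 0 1 := fun hc hd =>
    image_mono (Icc_subset_Icc hc hd)
  have clS : ∀ {c d : ℝ}, 0 ≤ c → d ≤ 1 → IsClosed (γ '' Icc c d) := fun hc hd =>
    closed_sub hγ hc hd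
  have clT : ∀ {c d : ℝ}, 0 ≤ c → d ≤ 1 → IsClosed (δ '' Icc c d) := fun hc hd =>
    closed_sub hδ hc hd
  have iS : ∀ s, 0 ≤ s → s ≤ 1 → ∀ s', 0 ≤ s' → s' ≤ 1 → γ s = γ s' → s = s' :=
    fun s h1 h2 s' h3 h4 h => hγi ⟨h1, h2⟩ ⟨h3, h4⟩ h
  have iT : ∀ s, 0 ≤ s → s ≤ 1 → ∀ s', 0 ≤ s' → s' ≤ 1 → δ s = δ s' → s = s' :=
    fun s h1 h2 s' h3 h4 h => hδi ⟨h1, h2⟩ ⟨h3, h4⟩ h
  -- membership in the ball
  have mB : ∀ {u v : ℝ}, -ε ≤ u → u ≤ ε → -ε ≤ v → v ≤ ε →
      ((u, v) : Plane) ∈ Metric.closedBall (0 : Plane) ε := by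
    intro u v h1 h2 h3 h4
    simp only [mem_closedBall_zero_iff, Prod.norm_mk, Real.norm_eq_abs]
    exact max_le (abs_le.2 ⟨h1, h2⟩) (abs_le.2 ⟨h3, h4⟩)
  have mI : ∀ {u : ℝ}, -ε ≤ u → u ≤ ε → u ∈ Icc (-ε) ε := fun h1 h2 => ⟨h1, h2⟩
  have n1 : -ε ≤ -ε := le_rfl
  have n2 : -ε ≤ ε := by linarith
  have n3 : -ε ≤ 0 := by linarith
  have n4 : (0 : ℝ) ≤ ε := hε.le
  have n5 : ε ≤ ε := le_rfl
  -- parameters
  have hh0 : h 0 = sp := by
    have := hhγ 0 (mI n3 n4)
    exact hγi this.1 ⟨hsp.le, hsp1.le⟩ (this.2.trans hH0)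
  have hk0 : k 0 = tp := by
    have := hkδ 0 (mI n3 n4)
    exact hδi this.1 ⟨htp0.le, htp.le⟩ (this.2.trans (hH0.trans hp))
  obtain ⟨hsm, esm⟩ := hhγ (-ε) (mI n1 n2)
  obtain ⟨hsP, esP⟩ := hhγ ε (mI n2 n5)
  obtain ⟨htm, etm⟩ := hkδ (-ε) (mI n1 n2)
  obtain ⟨htP, etP⟩ := hkδ ε (mI n2 n5)
  have lt1 : h (-ε) < sp := by
    rw [← hh0]; exact hh (mI n1 n2) (mI n3 n4) (by linarith)
  have lt2 : sp < h ε := by
    rw [← hh0]; exact hh (mI n3 n4) (mI n2 n5) hε
  have lt3 : k (-ε) < tp := by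
    rw [← hk0]; exact hk (mI n1 n2) (mI n3 n4) (by linarith)
  have lt4 : tp < k ε := by
    rw [← hk0]; exact hk (mI n3 n4) (mI n2 n5) hε
  set sm := h (-ε)
  set sP := h ε
  set tm := k (-ε)
  set tP := k ε
  have inN : ∀ {u v : ℝ}, -ε ≤ u → u ≤ ε → -ε ≤ v → v ≤ ε →
      H (u, v) ∈ H '' Metric.closedBall 0 ε := fun h1 h2 h3 h4 => ⟨_, mB h1 h2 h3 h4, rfl⟩
  have smN : γ sm ∈ H '' Metric.closedBall 0 ε := by rw [esm]; exact inN n1 n2 n3 n4
  have sPN : γ sP ∈ H '' Metric.closedBall 0 ε := by rw [esP]; exact inN n2 n5 n3 n4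
  have tmN : δ tm ∈ H '' Metric.closedBall 0 ε := by rw [etm]; exact inN n3 n4 n1 n2
  have tPN : δ tP ∈ H '' Metric.closedBall 0 ε := by rw [etP]; exact inN n3 n4 n2 n5
  have sm0 : 0 < sm := by
    rcases hsm.1.eq_or_lt with e | e
    · exfalso; rw [← e] at smN; exact hx (hHO smN)
    · exact e
  have tm0 : 0 < tm := by
    rcases htm.1.eq_or_lt with e | e
    · exfalso; rw [← e, h0] at tmN; exact hx (hHO tmN)
    · exact e
  have sP1 : sP < 1 := by
    rcases hsP.2.eq_or_lt with e | e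
    · exfalso; rw [e] at sPN; exact ha' (hHO sPN)
    · exact e
  have tP1 : tP < 1 := by
    rcases htP.2.eq_or_lt with e | e
    · exfalso; rw [e] at tPN; exact hb' (hHO tPN)
    · exact e
  -- points of the chords on the arcs
  have C1S : ∀ u ∈ Icc 0 ε, H (u, u - ε) ∈ γ '' Icc 0 1 → H (u, u - ε) = γ sP := by
    intro u hu hm
    have := (hHS _ (mB (by linarith [hu.1]) hu.2 (by linarith [hu.1]) (by linarith [hu.2]))).1 hm
    simp only at this
    have hue : u = ε := by linarith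
    rw [esP, hue, sub_self]
  have C1T : ∀ u ∈ Icc 0 ε, H (u, u - ε) ∈ δ '' Icc 0 1 → H (u, u - ε) = δ tm := by
    intro u hu hm
    have := (hHT _ (mB (by linarith [hu.1]) hu.2 (by linarith [hu.1]) (by linarith [hu.2]))).1 hm
    simp only at this
    rw [etm, this, zero_sub]
  have C2S : ∀ u ∈ Icc 0 ε, H (u - ε, u) ∈ γ '' Icc 0 1 → H (u - ε, u) = γ sm := by
    intro u hu hm
    have := (hHS _ (mB (by linarith [hu.1]) (by linarith [hu.2]) (by linarith [hu.1]) hu.2)).1 hm
    simp only at this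
    rw [esm, this, zero_sub]
  have C2T : ∀ u ∈ Icc 0 ε, H (u - ε, u) ∈ δ '' Icc 0 1 → H (u - ε, u) = δ tP := by
    intro u hu hm
    have := (hHT _ (mB (by linarith [hu.1]) (by linarith [hu.2]) (by linarith [hu.1]) hu.2)).1 hm
    simp only at this
    have hue : u = ε := by linarith
    rw [etP, hue, sub_self]
  have C1N : (fun u => H (u, u - ε)) '' Icc 0 ε ⊆ H '' Metric.closedBall 0 ε := by
    rintro y ⟨u, hu, rfl⟩
    exact inN (by linarith [hu.1]) hu.2 (by linarith [hu.1]) (by linarith [hu.2])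
  have C2N : (fun u => H (u - ε, u)) '' Icc 0 ε ⊆ H '' Metric.closedBall 0 ε := by
    rintro y ⟨u, hu, rfl⟩
    exact inN (by linarith [hu.1]) (by linarith [hu.2]) (by linarith [hu.1]) hu.2
  have sPT : γ sP ∉ δ '' Icc 0 1 := by
    rw [esP, hHT _ (mB n2 n5 n3 n4)]; simp only; linarith
  have smT : γ sm ∉ δ '' Icc 0 1 := by
    rw [esm, hHT _ (mB n1 n2 n3 n4)]; simp only; linarith
  have tPS : δ tP ∉ γ '' Icc 0 1 := by
    rw [etP, hHS _ (mB n3 n4 n2 n5)]; simp only; linarith
  have tmS : δ tm ∉ γ '' Icc 0 1 := by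
    rw [etm, hHS _ (mB n3 n4 n1 n2)]; simp only; linarith
  have c1c : ContinuousOn (fun u => H (u, u - ε)) (Icc 0 ε) := by
    apply hHc.comp (by fun_prop)
    intro u hu
    exact mB (by linarith [hu.1]) hu.2 (by linarith [hu.1]) (by linarith [hu.2])
  have c2c : ContinuousOn (fun u => H (u - ε, u)) (Icc 0 ε) := by
    apply hHc.comp (by fun_prop)
    intro u hu
    exact mB (by linarith [hu.1]) (by linarith [hu.2]) (by linarith [hu.1]) hu.2
  have c1i : InjOn (fun u => H (u, u - ε)) (Icc 0 ε) := by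
    intro u hu v hv huv
    exact congrArg Prod.fst (hHi (mB (by linarith [hu.1]) hu.2 (by linarith [hu.1])
      (by linarith [hu.2])) (mB (by linarith [hv.1]) hv.2 (by linarith [hv.1])
      (by linarith [hv.2])) huv)
  have c2i : InjOn (fun u => H (u - ε, u)) (Icc 0 ε) := by
    intro u hu v hv huv
    exact congrArg Prod.snd (hHi (mB (by linarith [hu.1]) (by linarith [hu.2])
      (by linarith [hu.1]) hu.2) (mB (by linarith [hv.1]) (by linarith [hv.2])
      (by linarith [hv.1]) hv.2) huv)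
  have cl1 : IsClosed ((fun u => H (u, u - ε)) '' Icc 0 ε) := isClosed_image c1c
  have cl2 : IsClosed ((fun u => H (u - ε, u)) '' Icc 0 ε) := isClosed_image c2c
  refine ⟨?_, ?_, hHO, ⟨sp, ⟨by linarith, by linarith⟩, rfl⟩,
    ⟨tp, ⟨by linarith, by linarith⟩, hp.symm⟩, ?_, ?_, ?_, ?_, ?_, ?_⟩
  · -- the arc `S'`
    have e1 := arc_sub hδ hδi le_rfl tm0 (by linarith)
    have e2 := isArc_image hε c1c c1i
    have e3 := arc_sub hγ hγi (c := sP) (d := 1) (by linarith) sP1 le_rfl
    simp only [zero_sub, sub_self] at e2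
    rw [h0] at e1
    rw [← etm, ← esP] at e2
    refine (e1.concat e2 ?_).concat e3 ?_
    · rintro y hy ⟨u, hu, rfl⟩
      exact C1T u hu (subT le_rfl (by linarith) hy)
    · rintro y (hy | ⟨u, hu, rfl⟩) ⟨s, hs, hse⟩
      · exfalso
        rw [← hse] at hy
        exact P2 s (by linarith [hs.1]) hs.2 (image_mono (Icc_subset_Icc_right lt3.le) hy)
      · exact C1S u hu ⟨s, ⟨by linarith [hs.1], hs.2⟩, hse⟩
  · -- the arc `T'`
    have e1 := arc_sub hγ hγi le_rfl sm0 (by linarith)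
    have e2 := isArc_image hε c2c c2i
    have e3 := arc_sub hδ hδi (c := tP) (d := 1) (by linarith) tP1 le_rfl
    simp only [zero_sub, sub_self] at e2
    rw [← esm, ← etP] at e2
    refine (e1.concat e2 ?_).concat e3 ?_
    · rintro y hy ⟨u, hu, rfl⟩
      exact C2S u hu (subS le_rfl (by linarith) hy)
    · rintro y (⟨s, hs, hse⟩ | ⟨u, hu, rfl⟩) hy
      · exfalso
        rcases hs.1.eq_or_lt with e | e
        · rw [← hse, ← e, ← h0] at hy
          have := mem_sub hδi (s := 0) (by simp) (by linarith) le_rfl hy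
          linarith [this.1]
        · rw [← hse] at hy
          exact P1 s e (by linarith [hs.2]) (subT (by linarith) le_rfl hy)
      · exact C2T u hu (subT (by linarith) le_rfl hy)
  · intro h
    have := iS sp (by linarith) (by linarith) 0 le_rfl zero_le_one h
    linarith
  · -- germs of `S'`
    rintro y ((⟨t, ht, rfl⟩ | hy) | ⟨s, hs, rfl⟩) hyN
    · by_cases hyS : δ t ∈ γ '' Icc 0 1
      · left
        exact ⟨hyS, subT le_rfl (by linarith) ⟨t, ht, rfl⟩⟩
      · right; right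
        have hne : t < tm := by
          rcases ht.2.eq_or_lt with e | e
          · exact absurd (e ▸ tmN) hyN
          · exact e
        refine (germ_union_left (clS (by linarith) le_rfl) ?_).trans
          ((germ_union_left cl1 fun h' => hyN (C1N h')).trans
          (germ_left hδ hδi ⟨ht.1, by linarith [ht.2]⟩ (by linarith) hne))
        intro h'
        exact hyS (subS (by linarith) le_rfl h')
    · exact absurd (C1N hy) hyN
    · by_cases hyT : γ s ∈ δ '' Icc 0 1
      · left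
        exact ⟨⟨s, ⟨by linarith [hs.1], hs.2⟩, rfl⟩, hyT⟩
      · right; left
        have hne : sP < s := by
          rcases hs.1.eq_or_lt with e | e
          · exact absurd (e ▸ sPN) hyN
          · exact e
        refine (germ_union_right ((clT le_rfl (by linarith)).union cl1) ?_).trans
          (germ_right hγ hγi ⟨by linarith [hs.1], hs.2⟩ (by linarith) hne)
        rintro (h' | h')
        · exact hyT (subT le_rfl (by linarith) h')
        · exact hyN (C1N h')
  · -- germs of `T'`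
    rintro y ((⟨s, hs, rfl⟩ | hy) | ⟨t, ht, rfl⟩) hyN
    · by_cases hyT : γ s ∈ δ '' Icc 0 1
      · left
        exact ⟨subS le_rfl (by linarith) ⟨s, hs, rfl⟩, hyT⟩
      · right; left
        have hne : s < sm := by
          rcases hs.2.eq_or_lt with e | e
          · exact absurd (e ▸ smN) hyN
          · exact e
        refine (germ_union_left (clT (by linarith) le_rfl) ?_).trans
          ((germ_union_left cl2 fun h' => hyN (C2N h')).trans
          (germ_left hγ hγi ⟨hs.1, by linarith [hs.2]⟩ (by linarith) hne))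
        intro h'
        exact hyT (subT (by linarith) le_rfl h')
    · exact absurd (C2N hy) hyN
    · by_cases hyS : δ t ∈ γ '' Icc 0 1
      · left
        exact ⟨hyS, ⟨t, ⟨by linarith [ht.1], ht.2⟩, rfl⟩⟩
      · right; right
        have hne : tP < t := by
          rcases ht.1.eq_or_lt with e | e
          · exact absurd (e ▸ tPN) hyN
          · exact e
        refine (germ_union_right ((clS le_rfl (by linarith)).union cl2) ?_).trans
          (germ_right hδ hδi ⟨by linarith [ht.1], ht.2⟩ (by linarith) hne)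
        rintro (h' | h')
        · exact hyS (subS le_rfl (by linarith) h')
        · exact hyN (C2N h')
  · -- intersections
    rintro y ((⟨t, ht, rfl⟩ | ⟨u, hu, rfl⟩) | ⟨s, hs, rfl⟩)
      ((⟨s', hs', he⟩ | ⟨u', hu', he⟩) | ⟨t', ht', he⟩)
    · left
      rcases hs'.1.eq_or_lt with e | e
      · rw [← he, ← e]
      · exact absurd (he ▸ ⟨t, ⟨ht.1, by linarith [ht.2]⟩, rfl⟩)
          (P1 s' e (by linarith [hs'.2]))
    · exfalso
      simp only at he
      have := C2T u' hu' (he ▸ ⟨t, ⟨ht.1, by linarith [ht.2]⟩, rfl⟩)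
      rw [he] at this
      have := iT t ht.1 (by linarith [ht.2]) tP (by linarith) (by linarith) this
      linarith [ht.2]
    · exfalso
      have := iT t' (by linarith [ht'.1]) ht'.2 t ht.1 (by linarith [ht.2]) he
      linarith [ht.2, ht'.1]
    · exfalso
      simp only at he
      have := C1S u hu (he ▸ ⟨s', ⟨hs'.1, by linarith [hs'.2]⟩, rfl⟩)
      rw [← he] at this
      have := iS s' hs'.1 (by linarith [hs'.2]) sP (by linarith) (by linarith) this
      linarith [hs'.2]
    · exfalso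
      have e := hHi (mB (by linarith [hu'.1]) (by linarith [hu'.2]) (by linarith [hu'.1]) hu'.2)
        (mB (by linarith [hu.1]) hu.2 (by linarith [hu.1]) (by linarith [hu.2])) he
      have e1 := congrArg Prod.fst e
      have e2 := congrArg Prod.snd e
      simp only at e1 e2
      linarith
    · exfalso
      simp only at he
      have := C1T u hu (he ▸ ⟨t', ⟨by linarith [ht'.1], ht'.2⟩, rfl⟩)
      rw [← he] at this
      have := iT t' (by linarith [ht'.1]) ht'.2 tm (by linarith) (by linarith) this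
      linarith [ht'.1]
    · exfalso
      have := iS s' hs'.1 (by linarith [hs'.2]) s (by linarith [hs.1]) hs.2 he
      linarith [hs.1, hs'.2]
    · exfalso
      simp only at he
      have := C2S u' hu' (he ▸ ⟨s, ⟨by linarith [hs.1], hs.2⟩, rfl⟩)
      rw [he] at this
      have := iS s (by linarith [hs.1]) hs.2 sm (by linarith) (by linarith) this
      linarith [hs.1]
    · right
      have yT : γ s ∈ δ '' Icc 0 1 := he ▸ ⟨t', ⟨by linarith [ht'.1], ht'.2⟩, rfl⟩
      have yS : δ t' ∈ γ '' Icc 0 1 := he ▸ ⟨s, ⟨by linarith [hs.1], hs.2⟩, rfl⟩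
      have h1 : sP < s := by
        rcases hs.1.eq_or_lt with e | e
        · exact absurd (e ▸ yT) sPT
        · exact e
      have h2 : tP < t' := by
        rcases ht'.1.eq_or_lt with e | e
        · exact absurd (e ▸ yS) tPS
        · exact e
      refine ⟨?_, ?_, ?_⟩
      · intro h'
        have := iS s (by linarith) hs.2 sp (by linarith) (by linarith) h'
        linarith
      · refine (germ_union_right ((clT le_rfl (by linarith)).union cl1) ?_).trans
          (germ_right hγ hγi ⟨by linarith [hs.1], hs.2⟩ (by linarith) h1)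
        rw [← he]
        rintro (h' | ⟨u, hu, hue⟩)
        · have := mem_sub hδi (s := t') ⟨by linarith, ht'.2⟩ le_rfl (by linarith) h'
          linarith [this.2]
        · simp only at hue
          have := C1S u hu (hue ▸ yS)
          rw [hue, he] at this
          exact sPT (this ▸ yT)
      · rw [← he]
        refine (germ_union_right ((clS le_rfl (by linarith)).union cl2) ?_).trans
          (germ_right hδ hδi ⟨by linarith [ht'.1], ht'.2⟩ (by linarith) h2)
        rw [he]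
        rintro (h' | ⟨u, hu, hue⟩)
        · have := mem_sub hγi (s := s) ⟨by linarith, hs.2⟩ le_rfl (by linarith) h'
          linarith [this.2]
        · simp only at hue
          have := C2S u hu (by rw [hue]; exact ⟨s, ⟨by linarith [hs.1], hs.2⟩, rfl⟩)
          rw [hue] at this
          exact smT (this ▸ yT)
  · rintro ((h' | h') | h')
    · have := mem_sub hδi (s := 1) (by simp) le_rfl (by linarith) h'
      linarith [this.2]
    · exact hb' (hHO (C1N h'))
    · exact hb (subS (by linarith) le_rfl h')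
  · rintro ((h' | h') | h')
    · have := mem_sub hγi (s := 1) (by simp) le_rfl (by linarith) h'
      linarith [this.2]
    · exact ha' (hHO (C2N h'))
    · exact ha (subT (by linarith) le_rfl h')

end Vale.Agent.P040.Unc
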