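import Vale.Agent.P040.Gen.ArcTools

/-!
# Lifting curves through the parametrisation of an arc, and oriented charts at a crossing
-/

namespace Vale.Agent.P040.Unc

open Set Filter Topology

/-- A curve inside an arc lifts continuously to the parameter interval. -/
theorem exists_lift {γ : ℝ → Plane} (hc : ContinuousOn γ (Icc 0 1)) (hi : InjOn γ (Icc 0 1))
    {κ : ℝ → Plane} {c d : ℝ} (hκ : ContinuousOn κ (Icc c d))
    (hmem : ∀ u ∈ Icc c d, κ u ∈ γ '' Icc 0 1) :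
    ∃ h : ℝ → ℝ, ContinuousOn h (Icc c d) ∧ ∀ u ∈ Icc c d, h u ∈ Icc (0 : ℝ) 1 ∧ γ (h u) = κ u := by
  have hcont : Continuous ((Icc (0 : ℝ) 1).domRestrict γ) := continuousOn_iff_continuous_domRestrict.1 hc
  have hinj : Function.Injective ((Icc (0 : ℝ) 1).domRestrict γ) := injOn_iff_injective.1 hi
  have hemb := hcont.isClosedEmbedding hinj
  choose! h' h1 h2 using hmem
  let g : Icc c d → Icc (0 : ℝ) 1 := fun u => ⟨h' u, h1 u u.2⟩
  have hg : Continuous g := by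
    rw [hemb.isInducing.continuous_iff]
    have : (Icc (0 : ℝ) 1).domRestrict γ ∘ g = (Icc c d).domRestrict κ := by
      funext u
      exact h2 u u.2
    rw [this]
    exact continuousOn_iff_continuous_domRestrict.1 hκ
  refine ⟨h', ?_, fun u hu => ⟨h1 u hu, h2 u hu⟩⟩
  rw [continuousOn_iff_continuous_domRestrict]
  exact continuous_subtype_val.comp hg

/-- Data of a proper crossing with both arcs traversed in the positive direction of the axes. -/
theorem oriented_chart {γ δ : ℝ → Plane} (hγ : ContinuousOn γ (Icc 0 1)) (hγi : InjOn γ (Icc 0 1))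
    (hδ : ContinuousOn δ (Icc 0 1)) (hδi : InjOn δ (Icc 0 1)) {p : Plane}
    (hX : CrossAt (γ '' Icc 0 1) (δ '' Icc 0 1) p) {O : Set Plane} (hO : IsOpen O) (hp : p ∈ O) :
    ∃ ε : ℝ, 0 < ε ∧ ∃ H : Plane → Plane, ∃ h k : ℝ → ℝ,
      ContinuousOn H (Metric.closedBall 0 ε) ∧ InjOn H (Metric.closedBall 0 ε) ∧
      H '' Metric.closedBall 0 ε ⊆ O ∧ H (0, 0) = p ∧
      (∀ z ∈ Metric.closedBall (0 : Plane) ε, (H z ∈ γ '' Icc 0 1 ↔ z.2 = 0)) ∧
      (∀ z ∈ Metric.closedBall (0 : Plane) ε, (H z ∈ δ '' Icc 0 1 ↔ z.1 = 0)) ∧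
      StrictMonoOn h (Icc (-ε) ε) ∧ StrictMonoOn k (Icc (-ε) ε) ∧
      (∀ u ∈ Icc (-ε) ε, h u ∈ Icc (0 : ℝ) 1 ∧ γ (h u) = H (u, 0)) ∧
      (∀ u ∈ Icc (-ε) ε, k u ∈ Icc (0 : ℝ) 1 ∧ δ (k u) = H (0, u)) := by
  obtain ⟨φ, hps, hp0, hS, hT⟩ := hX
  have ht : ((0 : ℝ), (0 : ℝ)) ∈ φ.target := by rw [← hp0]; exact φ.map_source hps
  have hsymm0 : φ.symm (0, 0) = p := by rw [← hp0]; exact φ.left_inv hps
  have hn1 : φ.target ∈ 𝓝 ((0 : ℝ), (0 : ℝ)) := φ.open_target.mem_nhds ht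
  have hn2 : φ.symm ⁻¹' O ∈ 𝓝 ((0 : ℝ), (0 : ℝ)) := by
    apply (φ.continuousAt_symm ht).preimage_mem_nhds
    rw [hsymm0]
    exact hO.mem_nhds hp
  obtain ⟨ε, hε, hball⟩ := Metric.nhds_basis_closedBall.mem_iff.1 (inter_mem hn1 hn2)
  have hball' : Metric.closedBall (0 : Plane) ε ⊆ φ.target ∩ φ.symm ⁻¹' O := hball
  have hcH : ContinuousOn φ.symm (Metric.closedBall (0 : Plane) ε) :=
    φ.continuousOn_symm.mono fun z hz => (hball' hz).1
  have hiH : InjOn φ.symm (Metric.closedBall (0 : Plane) ε) :=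
    φ.symm.injOn.mono fun z hz => (hball' hz).1
  have hS' : ∀ z ∈ Metric.closedBall (0 : Plane) ε, (φ.symm z ∈ γ '' Icc 0 1 ↔ z.2 = 0) := by
    intro z hz
    have := hS (φ.symm z) (φ.map_target (hball' hz).1)
    rwa [φ.right_inv (hball' hz).1] at this
  have hT' : ∀ z ∈ Metric.closedBall (0 : Plane) ε, (φ.symm z ∈ δ '' Icc 0 1 ↔ z.1 = 0) := by
    intro z hz
    have := hT (φ.symm z) (φ.map_target (hball' hz).1)
    rwa [φ.right_inv (hball' hz).1] at this
  have hmem1 : ∀ u ∈ Icc (-ε) ε, ((u, 0) : Plane) ∈ Metric.closedBall (0 : Plane) ε := by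
    intro u hu
    simp only [mem_closedBall_zero_iff, Prod.norm_mk, norm_zero, Real.norm_eq_abs]
    exact max_le (abs_le.2 hu) hε.le
  have hmem2 : ∀ u ∈ Icc (-ε) ε, ((0, u) : Plane) ∈ Metric.closedBall (0 : Plane) ε := by
    intro u hu
    simp only [mem_closedBall_zero_iff, Prod.norm_mk, norm_zero, Real.norm_eq_abs]
    exact max_le hε.le (abs_le.2 hu)
  obtain ⟨h, hhc, hh⟩ := exists_lift hγ hγi (κ := fun u => φ.symm (u, 0)) (c := -ε) (d := ε)
    (hcH.comp (by fun_prop) hmem1) (fun u hu => (hS' _ (hmem1 u hu)).2 rfl)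
  obtain ⟨k, hkc, hk⟩ := exists_lift hδ hδi (κ := fun u => φ.symm (0, u)) (c := -ε) (d := ε)
    (hcH.comp (by fun_prop) hmem2) (fun u hu => (hT' _ (hmem2 u hu)).2 rfl)
  have hhi : InjOn h (Icc (-ε) ε) := by
    intro u hu v hv huv
    have h1 := (hh u hu).2
    have h2 := (hh v hv).2
    rw [huv, h2] at h1
    have h3 := hiH (hmem1 v hv) (hmem1 u hu) h1
    exact (congrArg Prod.fst h3).symm
  have hki : InjOn k (Icc (-ε) ε) := by
    intro u hu v hv huv
    have h1 := (hk u hu).2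
    have h2 := (hk v hv).2
    rw [huv, h2] at h1
    have h3 := hiH (hmem2 v hv) (hmem2 u hu) h1
    exact (congrArg Prod.snd h3).symm
  have hle : -ε ≤ ε := by linarith
  -- signs
  have sgn : ∀ {f : ℝ → ℝ}, ContinuousOn f (Icc (-ε) ε) → InjOn f (Icc (-ε) ε) →
      ∃ σ : ℝ, (σ = 1 ∨ σ = -1) ∧ StrictMonoOn (fun u => f (σ * u)) (Icc (-ε) ε) := by
    intro f hf hfi
    rcases hf.strictMonoOn_of_injOn_Icc' hle hfi with hm | hm
    · exact ⟨1, Or.inl rfl, by simpa using hm⟩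
    · refine ⟨-1, Or.inr rfl, ?_⟩
      intro u hu v hv huv
      simp only
      apply hm
      · exact ⟨by linarith [hv.2], by linarith [hv.1]⟩
      · exact ⟨by linarith [hu.2], by linarith [hu.1]⟩
      · linarith
  obtain ⟨σ, hσ, hσm⟩ := sgn hhc hhi
  obtain ⟨τ, hτ, hτm⟩ := sgn hkc hki
  have hσI : ∀ u ∈ Icc (-ε) ε, σ * u ∈ Icc (-ε) ε := by
    intro u hu
    rcases hσ with rfl | rfl
    · simpa using hu
    · exact ⟨by linarith [hu.2], by linarith [hu.1]⟩
  have hτI : ∀ u ∈ Icc (-ε) ε, τ * u ∈ Icc (-ε) ε := by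
    intro u hu
    rcases hτ with rfl | rfl
    · simpa using hu
    · exact ⟨by linarith [hu.2], by linarith [hu.1]⟩
  have hσ0 : ∀ u : ℝ, σ * u = 0 ↔ u = 0 := by
    intro u; rcases hσ with rfl | rfl <;> simp
  have hτ0 : ∀ u : ℝ, τ * u = 0 ↔ u = 0 := by
    intro u; rcases hτ with rfl | rfl <;> simp
  have hmaps : MapsTo (fun z : Plane => ((σ * z.1, τ * z.2) : Plane))
      (Metric.closedBall (0 : Plane) ε) (Metric.closedBall (0 : Plane) ε) := by
    intro z hz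
    simp only [mem_closedBall_zero_iff, Prod.norm_def, Real.norm_eq_abs] at hz ⊢
    have h1 : |σ| = 1 := by rcases hσ with rfl | rfl <;> simp
    have h2 : |τ| = 1 := by rcases hτ with rfl | rfl <;> simp
    rwa [abs_mul, abs_mul, h1, h2, one_mul, one_mul]
  refine ⟨ε, hε, fun z => φ.symm (σ * z.1, τ * z.2), fun u => h (σ * u), fun u => k (τ * u),
    hcH.comp (by fun_prop) hmaps, ?_, ?_, ?_, ?_, ?_, hσm, hτm, ?_, ?_⟩
  · intro z hz w hw hzw
    have h1 := hiH (hmaps hz) (hmaps hw) hzw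
    have h2 := congrArg Prod.fst h1
    have h3 := congrArg Prod.snd h1
    simp only at h2 h3
    have h4 : σ * (z.1 - w.1) = 0 := by linarith
    have h5 : τ * (z.2 - w.2) = 0 := by linarith
    rw [hσ0] at h4
    rw [hτ0] at h5
    ext <;> linarith
  · rintro y ⟨z, hz, rfl⟩
    exact (hball' (hmaps hz)).2
  · simpa using hsymm0
  · intro z hz
    rw [hS' _ (hmaps hz)]
    exact hτ0 _
  · intro z hz
    rw [hT' _ (hmaps hz)]
    exact hσ0 _
  · intro u hu
    have := hh _ (hσI u hu)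
    simpa using this
  · intro u hu
    have := hk _ (hτI u hu)
    simpa using this

end Vale.Agent.P040.Unc
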